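import Vale.Agent.P064.Dense

/-!
Patterns cut into blocks, counting by restrictions, and the weights used by the chain.
-/

namespace Vale.Agent.P064.Chain

open Finset Vale.Agent.P064

variable {n w : ℕ}

/-- A pattern on `w` roles: out-roles, blocks named by their roots, critical blocks, a rank. -/
structure Pat (w : ℕ) where
  b : Fin w → Finset (Fin w)
  blk : Fin w → Fin w
  crit : Finset (Fin w)
  rk : Fin w → ℕ

variable (T : Pat w)

/-- The roles of a block. -/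
def Pat.mem (r : Fin w) : Finset (Fin w) := univ.filter fun i => T.blk i = r

/-- A block with its out-roles. -/
def Pat.cell (r : Fin w) : Finset (Fin w) := T.mem r ∪ (T.mem r).biUnion T.b

/-- The out-roles of a block outside it. -/
def Pat.xout (r : Fin w) : Finset (Fin w) := T.cell r \ T.mem r

/-- The edges owned by a set of roles. -/
def Pat.ed (D : Finset (Fin w)) : ℕ := ∑ i ∈ D, (T.b i).card

/-- Unions of blocks that are closed under out-roles. -/
def Pat.Closed (O : Finset (Fin w)) : Prop := ∀ i ∈ O, T.cell (T.blk i) ⊆ O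

/-- The weight of a set of roles at density `p`. -/
noncomputable def wt (n : ℕ) (p : ℝ) (D : Finset (Fin w)) : ℝ := (n : ℝ) ^ D.card * p ^ T.ed D

/-- The hypotheses on a pattern and on its family `S` of copies in `H0`. -/
structure Good (H0 : Finset (Sym2 (Fin n))) (q : ℝ) (E : ℕ) (Y Lam θ : ℝ) (T : Pat w)
    (S : Finset (Fin w ↪ Fin n)) : Prop where
  idem : ∀ i, T.blk (T.blk i) = T.blk i
  rank : ∀ i, ∀ j ∈ T.b i, T.blk j = T.blk i ∨ T.rk (T.blk j) < T.rk (T.blk i)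
  irrefl : ∀ i, i ∉ T.b i
  anti : ∀ i j, j ∈ T.b i → i ∉ T.b j
  edge : ∀ φ ∈ S, ∀ i, ∀ j ∈ T.b i, s(φ i, φ j) ∈ H0
  same : ∀ φ ∈ S, ∀ ψ ∈ S, ∀ i j, φ i = ψ j →
    (T.cell (T.blk i)).image φ = (T.cell (T.blk j)).image ψ
  det : ∀ i y, (((S.filter fun φ => φ i = y).image
    fun φ (k : T.cell (T.blk i)) => φ k).card : ℝ) ≤ Y ^ T.ed (T.mem (T.blk i))
  cdet : ∀ r ∈ T.crit, ∀ φ₀ ∈ S, (((S.filter fun φ => ∀ k ∈ T.xout r, φ k = φ₀ k).image
    fun φ (k : T.cell r) => φ k).card : ℝ) ≤ Y ^ T.ed (T.mem r)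
  size : ∀ r, (T.mem r).card ≤ 2 * T.ed (T.mem r) ∨ (T.mem r).card ≤ 1
  weight : ∀ r, T.blk r = r →
    θ ^ T.ed (T.mem r) ≤ wt T n q (T.mem r) ∧
      (r ∉ T.crit → Lam * θ ^ T.ed (T.mem r) ≤ wt T n q (T.mem r) ∨ E ≤ T.ed (T.mem r))

variable {T}

theorem Pat.mem_mem {i r : Fin w} : i ∈ T.mem r ↔ T.blk i = r := by simp [Pat.mem]

theorem Pat.mem_self (i : Fin w) : i ∈ T.mem (T.blk i) := Pat.mem_mem.2 rfl

theorem Pat.mem_subset_cell (r : Fin w) : T.mem r ⊆ T.cell r := subset_union_left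

theorem Pat.b_subset_cell {i j : Fin w} (h : j ∈ T.b i) : j ∈ T.cell (T.blk i) :=
  mem_union_right _ (mem_biUnion.2 ⟨i, Pat.mem_self i, h⟩)

theorem Pat.Closed.blk_mem {O : Finset (Fin w)} (hO : T.Closed O) {i j : Fin w} (hi : i ∈ O)
    (h : T.blk j = T.blk i) : j ∈ O :=
  hO i hi (Pat.mem_subset_cell _ (Pat.mem_mem.2 h))

theorem Pat.Closed.out_mem {O : Finset (Fin w)} (hO : T.Closed O) {i j : Fin w} (hi : i ∈ O)
    (h : j ∈ T.b i) : j ∈ O :=
  hO i hi (Pat.b_subset_cell h)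

theorem closed_univ : T.Closed univ := fun _ _ => subset_univ _

theorem closed_empty : T.Closed ∅ := fun i hi => absurd hi (notMem_empty i)

theorem closed_union {O P : Finset (Fin w)} (h : T.Closed O) (h' : T.Closed P) :
    T.Closed (O ∪ P) := fun i hi => by
  rcases mem_union.1 hi with hi | hi
  · exact (h i hi).trans subset_union_left
  · exact (h' i hi).trans subset_union_right

/-- The closure. -/
noncomputable def Pat.cl (T : Pat w) (O : Finset (Fin w)) : Finset (Fin w) := by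
  classical exact univ.filter fun i => ∀ C, T.Closed C → O ⊆ C → i ∈ C

theorem subset_cl (O : Finset (Fin w)) : O ⊆ T.cl O := fun i hi => by
  classical simpa [Pat.cl] using fun C _ hC => hC hi

theorem cl_min {O C : Finset (Fin w)} (hC : T.Closed C) (h : O ⊆ C) : T.cl O ⊆ C := fun i hi => by
  classical
  simp only [Pat.cl, mem_filter, mem_univ, true_and] at hi
  exact hi C hC h

theorem closed_cl (O : Finset (Fin w)) : T.Closed (T.cl O) := fun i hi j hj => by
  classical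
  simp only [Pat.cl, mem_filter, mem_univ, true_and] at hi ⊢
  exact fun C hC h => hC i (hi C hC h) hj

theorem ed_union {D D' : Finset (Fin w)} (h : Disjoint D D') :
    T.ed (D ∪ D') = T.ed D + T.ed D' := sum_union h

theorem ed_mono {D D' : Finset (Fin w)} (h : D ⊆ D') : T.ed D ≤ T.ed D' :=
  sum_le_sum_of_subset h

theorem wt_union (p : ℝ) {D D' : Finset (Fin w)} (h : Disjoint D D') :
    wt T n p (D ∪ D') = wt T n p D * wt T n p D' := by
  rw [wt, wt, wt, card_union_of_disjoint h, ed_union h, pow_add, pow_add]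
  ring

theorem wt_pos {p : ℝ} (hn : 0 < n) (hp : 0 < p) (D : Finset (Fin w)) : 0 < wt T n p D := by
  have : (0 : ℝ) < n := by exact_mod_cast hn
  rw [wt]; positivity

theorem wt_scale (c p : ℝ) (D : Finset (Fin w)) :
    wt T n (c * p) D = c ^ T.ed D * wt T n p D := by
  rw [wt, wt, mul_pow]; ring

theorem wt_chain (p : ℝ) {A C B : Finset (Fin w)} (h1 : A ⊆ C) (h2 : C ⊆ B) :
    wt T n p (B \ A) = wt T n p (C \ A) * wt T n p (B \ C) := by
  rw [← wt_union p (disjoint_of_subset_left sdiff_subset disjoint_sdiff), union_comm]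
  congr 1
  ext i
  simp only [mem_sdiff, mem_union]
  constructor
  · rintro ⟨hB, hA⟩
    by_cases hC : i ∈ C
    · exact Or.inr ⟨hC, hA⟩
    · exact Or.inl ⟨hB, hC⟩
  · rintro (⟨hB, hC⟩ | ⟨hC, hA⟩)
    · exact ⟨hB, fun h => hC (h1 h)⟩
    · exact ⟨h2 hC, hA⟩

theorem ed_chain {A C B : Finset (Fin w)} (h1 : A ⊆ C) (h2 : C ⊆ B) :
    T.ed (B \ A) = T.ed (C \ A) + T.ed (B \ C) := by
  rw [add_comm, ← ed_union (disjoint_of_subset_right sdiff_subset sdiff_disjoint)]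
  congr 1
  ext i
  simp only [mem_sdiff, mem_union]
  constructor
  · rintro ⟨hB, hA⟩
    by_cases hC : i ∈ C
    · exact Or.inr ⟨hC, hA⟩
    · exact Or.inl ⟨hB, hC⟩
  · rintro (⟨hB, hC⟩ | ⟨hC, hA⟩)
    · exact ⟨hB, fun h => hC (h1 h)⟩
    · exact ⟨h2 hC, hA⟩

/-- The restriction of a map to a set of roles. -/
def res (B : Finset (Fin w)) (φ : Fin w ↪ Fin n) : B → Fin n := fun i => φ i

/-- The number of restrictions to `B`. -/
def cnt (B : Finset (Fin w)) (F : Finset (Fin w ↪ Fin n)) : ℕ := (F.image (res B)).card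

/-- The members of `F` that agree with `φ₀` on `A`. -/
def fam (F : Finset (Fin w ↪ Fin n)) (A : Finset (Fin w)) (φ₀ : Fin w ↪ Fin n) :
    Finset (Fin w ↪ Fin n) :=
  F.filter fun φ => ∀ i ∈ A, φ i = φ₀ i

theorem mem_fam {F : Finset (Fin w ↪ Fin n)} {A : Finset (Fin w)} {φ₀ φ : Fin w ↪ Fin n} :
    φ ∈ fam F A φ₀ ↔ φ ∈ F ∧ ∀ i ∈ A, φ i = φ₀ i := mem_filter

theorem res_eq_iff {B : Finset (Fin w)} {φ ψ : Fin w ↪ Fin n} :
    res B φ = res B ψ ↔ ∀ i ∈ B, φ i = ψ i :=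
  ⟨fun h i hi => congrFun h ⟨i, hi⟩, fun h => funext fun i => h i.1 i.2⟩

theorem cnt_mono (B : Finset (Fin w)) {F F' : Finset (Fin w ↪ Fin n)} (h : F ⊆ F') :
    cnt B F ≤ cnt B F' := card_le_card (image_subset_image h)

theorem cnt_univ (F : Finset (Fin w ↪ Fin n)) : cnt univ F = F.card :=
  card_image_of_injective _ fun _ _ h => Function.Embedding.ext fun i =>
    (res_eq_iff.1 h) i (mem_univ i)

/-- Counting through a key with bounded fibres. -/
theorem cnt_split {γ : Type*} [DecidableEq γ] (key : (Fin w ↪ Fin n) → γ) (B : Finset (Fin w))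
    (F : Finset (Fin w ↪ Fin n)) {M : ℝ}
    (h : ∀ φ₀ ∈ F, (cnt B (F.filter fun φ => key φ = key φ₀) : ℝ) ≤ M) :
    (cnt B F : ℝ) ≤ (F.image key).card * M := by
  classical
  have h1 : F.image (res B) ⊆
      (F.image key).biUnion fun g => (F.filter fun φ => key φ = g).image (res B) := fun x hx => by
    obtain ⟨φ, hφ, rfl⟩ := mem_image.1 hx
    exact mem_biUnion.2 ⟨key φ, mem_image_of_mem _ hφ,
      mem_image_of_mem _ (mem_filter.2 ⟨hφ, rfl⟩)⟩
  refine le_trans (Nat.cast_le.2 ((card_le_card h1).trans card_biUnion_le)) ?_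
  push_cast
  refine le_trans (Finset.sum_le_sum (g := fun _ => M) fun g hg => ?_) ?_
  · obtain ⟨φ₀, hφ₀, rfl⟩ := mem_image.1 hg
    exact h φ₀ hφ₀
  · rw [sum_const, nsmul_eq_mul]

/-- Counting through the restriction to a larger known set. -/
theorem cnt_step (C B : Finset (Fin w)) (F : Finset (Fin w ↪ Fin n)) {M : ℝ}
    (h : ∀ φ₀ ∈ F, (cnt B (fam F C φ₀) : ℝ) ≤ M) :
    (cnt B F : ℝ) ≤ cnt C F * M := by
  classical
  refine cnt_split (res C) B F fun φ₀ hφ₀ => le_trans (Nat.cast_le.2 (cnt_mono B ?_)) (h φ₀ hφ₀)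
  intro φ hφ
  obtain ⟨h1, h2⟩ := mem_filter.1 hφ
  exact mem_fam.2 ⟨h1, res_eq_iff.1 h2⟩

theorem cnt_le_one {B : Finset (Fin w)} {F : Finset (Fin w ↪ Fin n)}
    (h : ∀ φ ∈ F, ∀ ψ ∈ F, ∀ i ∈ B, φ i = ψ i) : cnt B F ≤ 1 := by
  refine card_le_one.2 fun x hx y hy => ?_
  obtain ⟨φ, hφ, rfl⟩ := mem_image.1 hx
  obtain ⟨ψ, hψ, rfl⟩ := mem_image.1 hy
  exact res_eq_iff.2 (h φ hφ ψ hψ)

/-- Restrictions that agree on `O` are at most `n` to the number of other roles. -/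
theorem cnt_le_pow {B O : Finset (Fin w)} {F : Finset (Fin w ↪ Fin n)}
    (h : ∀ φ ∈ F, ∀ ψ ∈ F, ∀ i ∈ O, φ i = ψ i) : cnt B F ≤ n ^ (B \ O).card := by
  classical
  have hle : cnt B F ≤ cnt (B \ O) F := by
    refine card_le_card_of_injOn (fun g (i : ↥(B \ O)) => g ⟨i.1, (mem_sdiff.1 i.2).1⟩) ?_ ?_
    · intro x hx
      obtain ⟨φ, hφ, rfl⟩ := mem_image.1 (mem_coe.1 hx)
      exact mem_coe.2 (mem_image_of_mem (res (B \ O)) hφ)
    · intro x hx y hy hxy
      obtain ⟨φ, hφ, rfl⟩ := mem_image.1 (mem_coe.1 hx)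
      obtain ⟨ψ, hψ, rfl⟩ := mem_image.1 (mem_coe.1 hy)
      refine res_eq_iff.2 fun i hi => ?_
      by_cases hO : i ∈ O
      · exact h φ hφ ψ hψ i hO
      · exact congrFun hxy ⟨i, mem_sdiff.2 ⟨hi, hO⟩⟩
  refine hle.trans ((card_le_univ _).trans (le_of_eq ?_))
  rw [Fintype.card_fun, Fintype.card_fin, Fintype.card_coe]

end Vale.Agent.P064.Chain
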