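import Vale.Agent.P064.Chain.Local

/-!
Exploration of a block from a known set of roles inside few host edges: a step is paid only when a
block that is not critical becomes known.
-/

namespace Vale.Agent.P064.Chain

open Finset Vale.Agent.P064

variable {n w : ℕ} {H0 : Finset (Sym2 (Fin n))} {q : ℝ} {E : ℕ} {Y Lam θ : ℝ} {T : Pat w}
  {S : Finset (Fin w ↪ Fin n)}

/-- The roots of the blocks of `B` that are not inside `O`. -/
def pend (T : Pat w) (B O : Finset (Fin w)) : Finset (Fin w) :=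
  (B.image T.blk).filter fun r => ¬ T.cell r ⊆ O

/-- The edges of the pending blocks. -/
def pot (T : Pat w) (B O : Finset (Fin w)) : ℕ := ∑ r ∈ pend T B O, T.ed (T.mem r)

/-- The pending blocks that are not critical. -/
def rpot (T : Pat w) (B O : Finset (Fin w)) : ℕ := ((pend T B O).filter (· ∉ T.crit)).card

theorem pend_anti {B O O' : Finset (Fin w)} (h : O ⊆ O') : pend T B O' ⊆ pend T B O := fun _ hr =>
  mem_filter.2 ⟨(mem_filter.1 hr).1, fun h' => (mem_filter.1 hr).2 (h'.trans h)⟩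

theorem pot_anti {B O O' : Finset (Fin w)} (h : O ⊆ O') : pot T B O' ≤ pot T B O :=
  sum_le_sum_of_subset (pend_anti h)

theorem rpot_anti {B O O' : Finset (Fin w)} (h : O ⊆ O') : rpot T B O' ≤ rpot T B O :=
  card_le_card (filter_subset_filter _ (pend_anti h))

theorem pot_add {B O O' : Finset (Fin w)} (h : O ⊆ O') {r : Fin w} (hr : r ∈ pend T B O)
    (hr' : T.cell r ⊆ O') : pot T B O' + T.ed (T.mem r) ≤ pot T B O := by
  rw [pot, pot, ← Finset.sum_erase_add _ _ hr]
  refine Nat.add_le_add_right (sum_le_sum_of_subset fun x hx => ?_) _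
  exact mem_erase.2 ⟨fun e => (mem_filter.1 hx).2 (e ▸ hr'), pend_anti h hx⟩

theorem rpot_lt {B O O' : Finset (Fin w)} (h : O ⊆ O') {r : Fin w} (hr : r ∈ pend T B O)
    (hrc : r ∉ T.crit) (hr' : T.cell r ⊆ O') : rpot T B O' + 1 ≤ rpot T B O := by
  refine Nat.succ_le_of_lt (card_lt_card ((ssubset_iff_of_subset
    (filter_subset_filter _ (pend_anti h))).2 ⟨r, mem_filter.2 ⟨hr, hrc⟩, fun h' => ?_⟩))
  exact (mem_filter.1 (mem_filter.1 h').1).2 hr'

/-- Knowing a larger set costs no more than knowing the new part. -/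
theorem cnt_union_le {O C : Finset (Fin w)} {F : Finset (Fin w ↪ Fin n)}
    (h : ∀ φ ∈ F, ∀ ψ ∈ F, ∀ i ∈ O, φ i = ψ i) : cnt (O ∪ C) F ≤ cnt C F := by
  have h1 : (cnt (O ∪ C) F : ℝ) ≤ cnt C F * 1 := by
    refine cnt_step C (O ∪ C) F fun φ₀ _ => ?_
    refine le_trans (Nat.cast_le.2 (cnt_le_one fun φ hφ ψ hψ i hi => ?_)) (le_of_eq Nat.cast_one)
    obtain ⟨hφ1, hφ2⟩ := mem_fam.1 hφ
    obtain ⟨hψ1, hψ2⟩ := mem_fam.1 hψ
    rcases mem_union.1 hi with hi | hi
    · exact h φ hφ1 ψ hψ1 i hi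
    · rw [hφ2 i hi, hψ2 i hi]
  rw [mul_one] at h1
  exact_mod_cast h1

theorem cnt_cell_le (hG : Good H0 q E Y Lam θ T S) {F : Finset (Fin w ↪ Fin n)} (hF : F ⊆ S)
    {i : Fin w} (h : ∀ φ ∈ F, ∀ ψ ∈ F, φ i = ψ i) (hY : 1 ≤ Y) :
    (cnt (T.cell (T.blk i)) F : ℝ) ≤ Y ^ T.ed (T.mem (T.blk i)) := by
  rcases F.eq_empty_or_nonempty with rfl | ⟨φ₀, hφ₀⟩
  · simp only [cnt, image_empty, card_empty, Nat.cast_zero]
    positivity
  refine le_trans (Nat.cast_le.2 (cnt_mono _ ?_)) (hG.det i (φ₀ i))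
  exact fun φ hφ => mem_filter.2 ⟨hF hφ, h φ hφ φ₀ hφ₀⟩

/-- The closure of a known set costs only the blocks it adds. -/
theorem cnt_close (hG : Good H0 q E Y Lam θ T S) (hY : 1 ≤ Y) {B : Finset (Fin w)}
    (hB : T.Closed B) :
    ∀ (k : ℕ) (O : Finset (Fin w)) (F : Finset (Fin w ↪ Fin n)), (T.cl O \ O).card ≤ k → O ⊆ B →
      F ⊆ S → (∀ φ ∈ F, ∀ ψ ∈ F, ∀ i ∈ O, φ i = ψ i) →
        (cnt (T.cl O) F : ℝ) ≤ Y ^ (pot T B O - pot T B (T.cl O)) := by
  intro k
  induction k using Nat.strong_induction_on with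
  | _ k ih =>
    intro O F hk hOB hF hO
    by_cases hc : T.Closed O
    · rw [Subset.antisymm (cl_min hc subset_rfl) (subset_cl O)]
      exact le_trans (Nat.cast_le.2 (cnt_le_one hO)) (by simp)
    obtain ⟨i, hi, hni⟩ : ∃ i ∈ O, ¬ T.cell (T.blk i) ⊆ O := by
      simpa [Pat.Closed] using hc
    set r := T.blk i with hr
    set O' := O ∪ T.cell r with hO'
    have hO'cl : O' ⊆ T.cl O := union_subset (subset_cl O) (closed_cl O i (subset_cl O hi))
    have hcl : T.cl O' = T.cl O := Subset.antisymm (cl_min (closed_cl O) hO'cl)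
      (cl_min (closed_cl O') (subset_union_left.trans (subset_cl O')))
    have hrp : r ∈ pend T B O := mem_filter.2 ⟨mem_image_of_mem _ (hOB hi), hni⟩
    have hpot := pot_add (T := T) (B := B) (O := O) (O' := O') subset_union_left hrp
      subset_union_right
    have hlt : (T.cl O' \ O').card < (T.cl O \ O).card := by
      rw [hcl]
      obtain ⟨x, hx, hxO⟩ := not_subset.1 hni
      refine card_lt_card ((ssubset_iff_of_subset (sdiff_subset_sdiff subset_rfl
        subset_union_left)).2 ⟨x, mem_sdiff.2 ⟨hO'cl (mem_union_right _ hx), hxO⟩, fun h => ?_⟩)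
      exact (mem_sdiff.1 h).2 (mem_union_right _ hx)
    have hmono : pot T B (T.cl O) ≤ pot T B O' := pot_anti hO'cl
    refine (cnt_step O' (T.cl O) F (M := Y ^ (pot T B O' - pot T B (T.cl O)))
      fun φ₀ hφ₀ => ?_).trans ?_
    · rw [← hcl]
      refine ih _ (hlt.trans_le hk) O' _ le_rfl ?_ ((filter_subset _ _).trans hF) ?_
      · exact union_subset hOB (hB i (hOB hi))
      · intro φ hφ ψ hψ j hj
        rw [(mem_fam.1 hφ).2 j hj, (mem_fam.1 hψ).2 j hj]
    · calc (cnt O' F : ℝ) * Y ^ (pot T B O' - pot T B (T.cl O))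
          ≤ Y ^ T.ed (T.mem r) * Y ^ (pot T B O' - pot T B (T.cl O)) := by
            refine mul_le_mul_of_nonneg_right ?_ (by positivity)
            exact le_trans (Nat.cast_le.2 (cnt_union_le hO))
              (cnt_cell_le hG hF (fun φ hφ ψ hψ => hO φ hφ ψ hψ i hi) hY)
        _ ≤ _ := by
            rw [← pow_add]
            exact pow_le_pow_right₀ hY (by omega)

variable {A B : Finset (Fin w)}

open Classical in
/-- The exploration. The number `M` bounds what is left when it cannot continue. -/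
theorem explore (hG : Good H0 q E Y Lam θ T S) (hY : 1 ≤ Y) (hB : T.Closed B)
    {U : Finset (Sym2 (Fin n))} {Δ : ℕ} (hΔ : 1 ≤ Δ) {M : ℝ} (hM : 1 ≤ M)
    (hstuck : ∀ O, T.Closed O → A ⊂ O → O ⊂ B → ∀ φ ∈ S, edgesOf T (B \ A) φ ⊆ U →
      (∀ i ∈ B \ O, ∀ j ∈ T.b i, j ∈ O → Δ < (U.filter (φ j ∈ ·)).card) →
      (∀ r ∈ pend T B O, r ∈ T.crit → ¬ T.xout r ⊆ O) →
        (n : ℝ) ^ (B \ O).card ≤ M) :
    ∀ (k : ℕ) (O : Finset (Fin w)) (F : Finset (Fin w ↪ Fin n)), (B \ O).card ≤ k →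
      A ⊂ O → O ⊆ B → F ⊆ S → (∀ φ ∈ F, edgesOf T (B \ A) φ ⊆ U) →
      (∀ φ ∈ F, ∀ ψ ∈ F, ∀ i ∈ O, φ i = ψ i) →
        (cnt B F : ℝ) ≤ Y ^ pot T B O * (Δ : ℝ) ^ rpot T B O * M := by
  intro k
  induction k using Nat.strong_induction_on with
  | _ k ih =>
    intro O F hk hAO hOB hF hFU hO
    have hΔ1 : (1 : ℝ) ≤ Δ := by exact_mod_cast hΔ
    have hone : (1 : ℝ) ≤ Y ^ pot T B O * (Δ : ℝ) ^ rpot T B O * M :=
      one_le_mul_of_one_le_of_one_le
        (one_le_mul_of_one_le_of_one_le (one_le_pow₀ hY) (one_le_pow₀ hΔ1)) hM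
    rcases F.eq_empty_or_nonempty with rfl | ⟨φ₀, hφ₀⟩
    · simp only [cnt, image_empty, card_empty, Nat.cast_zero]
      positivity
    -- continuing from a larger known set
    have next' : ∀ C : Finset (Fin w), O ⊂ C → C ⊆ B → ∀ G ⊆ F, ∀ φ ∈ G,
        (cnt B (fam G C φ) : ℝ) ≤ Y ^ pot T B C * (Δ : ℝ) ^ rpot T B C * M := by
      intro C hOC hCB G hG φ _
      refine ih _ (lt_of_lt_of_le ?_ hk) C _ le_rfl (hAO.trans_subset hOC.1) hCB
        (((filter_subset _ _).trans hG).trans hF) (fun ψ hψ => hFU ψ (hG (mem_fam.1 hψ).1)) ?_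
      · obtain ⟨x, hx, hxO⟩ := exists_of_ssubset hOC
        refine card_lt_card ((ssubset_iff_of_subset (sdiff_subset_sdiff subset_rfl hOC.1)).2
          ⟨x, mem_sdiff.2 ⟨hCB hx, hxO⟩, fun h => (mem_sdiff.1 h).2 hx⟩)
      · intro φ' hφ' ψ hψ j hj
        rw [(mem_fam.1 hφ').2 j hj, (mem_fam.1 hψ).2 j hj]
    by_cases hc : T.Closed O
    swap
    · have hOC : O ⊂ T.cl O := ⟨subset_cl O, fun h => hc
        ((Subset.antisymm h (subset_cl O)) ▸ closed_cl O)⟩
      have hCB : T.cl O ⊆ B := cl_min hB hOB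
      refine (cnt_step (T.cl O) B F (fun φ hφ => next' _ hOC hCB F subset_rfl φ hφ)).trans ?_
      calc (cnt (T.cl O) F : ℝ) * (Y ^ pot T B (T.cl O) * (Δ : ℝ) ^ rpot T B (T.cl O) * M)
          ≤ Y ^ (pot T B O - pot T B (T.cl O)) *
              (Y ^ pot T B (T.cl O) * (Δ : ℝ) ^ rpot T B O * M) := by
            refine mul_le_mul (cnt_close hG hY hB _ O F le_rfl hOB hF hO) ?_ (by positivity)
              (by positivity)
            exact mul_le_mul_of_nonneg_right (mul_le_mul_of_nonneg_left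
              (pow_le_pow_right₀ hΔ1 (rpot_anti hOC.1)) (by positivity)) (by linarith)
        _ = _ := by
            rw [← mul_assoc, ← mul_assoc, ← pow_add, Nat.sub_add_cancel (pot_anti hOC.1)]
    rcases eq_or_ssubset_of_subset hOB with rfl | hOlt
    · exact le_trans (Nat.cast_le.2 (cnt_le_one hO)) (le_trans (le_of_eq Nat.cast_one) hone)
    by_cases h1 : ∃ r ∈ pend T B O, r ∈ T.crit ∧ T.xout r ⊆ O
    · obtain ⟨r, hr, hrc, hro⟩ := h1
      obtain ⟨hrB, hrO⟩ := mem_filter.1 hr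
      obtain ⟨i, hi, rfl⟩ := mem_image.1 hrB
      have hlt : O ⊂ O ∪ T.cell (T.blk i) := ⟨subset_union_left, fun h =>
        hrO (subset_union_right.trans h)⟩
      have hCB : O ∪ T.cell (T.blk i) ⊆ B := union_subset hOB (hB i hi)
      refine (cnt_step _ B F (fun φ hφ => next' _ hlt hCB F subset_rfl φ hφ)).trans ?_
      have hcd : (cnt (O ∪ T.cell (T.blk i)) F : ℝ) ≤ Y ^ T.ed (T.mem (T.blk i)) := by
        refine le_trans (Nat.cast_le.2 ((cnt_union_le hO).trans (cnt_mono _ ?_)))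
          (hG.cdet _ hrc φ₀ (hF hφ₀))
        exact fun φ hφ => mem_filter.2 ⟨hF hφ, fun k hk => hO φ hφ φ₀ hφ₀ k (hro hk)⟩
      calc (cnt (O ∪ T.cell (T.blk i)) F : ℝ) * (Y ^ pot T B (O ∪ T.cell (T.blk i)) *
              (Δ : ℝ) ^ rpot T B (O ∪ T.cell (T.blk i)) * M)
          ≤ Y ^ T.ed (T.mem (T.blk i)) *
              (Y ^ pot T B (O ∪ T.cell (T.blk i)) * (Δ : ℝ) ^ rpot T B O * M) := by
            refine mul_le_mul hcd ?_ (by positivity) (by positivity)
            exact mul_le_mul_of_nonneg_right (mul_le_mul_of_nonneg_left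
              (pow_le_pow_right₀ hΔ1 (rpot_anti hlt.1)) (by positivity)) (by linarith)
        _ ≤ _ := by
            rw [← mul_assoc, ← mul_assoc, ← pow_add]
            refine mul_le_mul_of_nonneg_right (mul_le_mul_of_nonneg_right
              (pow_le_pow_right₀ hY ?_) (by positivity)) (by linarith)
            have := pot_add (B := B) hlt.1 hr subset_union_right
            omega
    push Not at h1
    by_cases h2 : ∃ i ∈ B \ O, ∃ j ∈ T.b i, j ∈ O ∧ (U.filter (φ₀ j ∈ ·)).card ≤ Δ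
    swap
    · push Not at h2
      refine le_trans (Nat.cast_le.2 (cnt_le_pow hO)) ?_
      rw [Nat.cast_pow]
      refine (hstuck O hc hAO hOlt φ₀ (hF hφ₀) (hFU φ₀ hφ₀) h2 h1).trans ?_
      exact le_mul_of_one_le_left (by linarith)
        (one_le_mul_of_one_le_of_one_le (one_le_pow₀ hY) (one_le_pow₀ hΔ1))
    obtain ⟨i, hi, j, hj, hjO, hdeg⟩ := h2
    obtain ⟨hiB, hiO⟩ := mem_sdiff.1 hi
    set O' := insert i O with hO'
    set C := T.cl O' with hC
    have hOC : O ⊂ C := ⟨(subset_insert _ _).trans (subset_cl _), fun h =>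
      hiO (h (subset_cl _ (mem_insert_self _ _)))⟩
    have hCB : C ⊆ B := cl_min hB (insert_subset hiB hOB)
    -- a block that is not critical becomes known
    have hrich : rpot T B C + 1 ≤ rpot T B O := by
      obtain ⟨r, hr, hmin⟩ := exists_min_image ((C \ O).image T.blk) T.rk
        ⟨T.blk i, mem_image_of_mem _ (mem_sdiff.2 ⟨subset_cl _ (mem_insert_self _ _), hiO⟩)⟩
      obtain ⟨x, hx, rfl⟩ := mem_image.1 hr
      obtain ⟨hxC, hxO⟩ := mem_sdiff.1 hx
      have hrp : T.blk x ∈ pend T B O := mem_filter.2 ⟨mem_image_of_mem _ (hCB hxC),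
        fun h => hxO (h (Pat.mem_subset_cell _ (Pat.mem_self x)))⟩
      refine rpot_lt hOC.1 hrp (fun hcr => h1 _ hrp hcr fun l hl => ?_) (closed_cl _ x hxC)
      obtain ⟨hlc, hlm⟩ := mem_sdiff.1 hl
      by_contra hlO
      have hlt := hmin _ (mem_image_of_mem T.blk
        (mem_sdiff.2 ⟨closed_cl _ x hxC hlc, hlO⟩))
      rcases mem_union.1 hlc with h | h
      · exact hlm h
      · obtain ⟨m, hm, hlb⟩ := mem_biUnion.1 h
        rcases hG.rank m l hlb with h' | h'
        · exact hlm (Pat.mem_mem.2 (h'.trans (Pat.mem_mem.1 hm)))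
        · rw [Pat.mem_mem.1 hm] at h'
          omega
    have hkey : (F.image fun φ : Fin w ↪ Fin n => φ i).card ≤ Δ := by
      refine le_trans ?_ hdeg
      refine card_le_card_of_injOn (fun y => s(φ₀ j, y)) ?_ fun a _ c _ h => Sym2.congr_right.1 h
      intro y hy
      obtain ⟨φ, hφ, rfl⟩ := mem_image.1 (mem_coe.1 hy)
      refine mem_coe.2 (mem_filter.2 ⟨hFU φ hφ (mem_edgesOf.2 ⟨i, mem_sdiff.2 ⟨hiB, fun h =>
        hiO (hAO.1 h)⟩, j, hj, ?_⟩), Sym2.mem_mk_left _ _⟩)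
      rw [hO φ hφ φ₀ hφ₀ j hjO, Sym2.eq_swap]
    refine (cnt_split (fun φ : Fin w ↪ Fin n => φ i) B F
      (M := Y ^ pot T B O * (Δ : ℝ) ^ rpot T B C * M) fun φ₁ hφ₁ => ?_).trans ?_
    · set G := F.filter fun φ => φ i = φ₁ i with hGdef
      refine (cnt_step C B G fun φ hφ => next' C hOC hCB G (filter_subset _ _) φ hφ).trans ?_
      calc (cnt C G : ℝ) * (Y ^ pot T B C * (Δ : ℝ) ^ rpot T B C * M)
          ≤ Y ^ (pot T B O' - pot T B C) * (Y ^ pot T B C * (Δ : ℝ) ^ rpot T B C * M) := by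
            refine mul_le_mul_of_nonneg_right (cnt_close hG hY hB _ O' G le_rfl
              (insert_subset hiB hOB) ((filter_subset _ _).trans hF) ?_) (by positivity)
            intro φ hφ ψ hψ l hl
            rcases mem_insert.1 hl with rfl | hl
            · rw [(mem_filter.1 hφ).2, (mem_filter.1 hψ).2]
            · exact hO φ (mem_filter.1 hφ).1 ψ (mem_filter.1 hψ).1 l hl
        _ ≤ _ := by
            rw [← mul_assoc, ← mul_assoc, ← pow_add, Nat.sub_add_cancel (pot_anti (subset_cl O'))]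
            exact mul_le_mul_of_nonneg_right (mul_le_mul_of_nonneg_right
              (pow_le_pow_right₀ hY (pot_anti (subset_insert _ _))) (by positivity)) (by linarith)
    · calc ((F.image fun φ : Fin w ↪ Fin n => φ i).card : ℝ) *
              (Y ^ pot T B O * (Δ : ℝ) ^ rpot T B C * M)
          ≤ (Δ : ℝ) * (Y ^ pot T B O * (Δ : ℝ) ^ rpot T B C * M) :=
            mul_le_mul_of_nonneg_right (Nat.cast_le.2 hkey) (by positivity)
        _ = Y ^ pot T B O * (Δ : ℝ) ^ (rpot T B C + 1) * M := by rw [pow_succ]; ring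
        _ ≤ _ := by gcongr

end Vale.Agent.P064.Chain
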