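import Vale.Agent.P064.Chain.Basic
import Mathlib.Analysis.Complex.Exponential
import Mathlib.Analysis.Complex.ExponentialBounds
import Mathlib.Data.Nat.Choose.Bounds

/-!
One block of the chain: a small set of seeds meets every copy, and all copies through a seed lie in
a small set of host edges.
-/

namespace Vale.Agent.P064.Chain

open Finset Vale.Agent.P064

variable {n w : ℕ} {H0 : Finset (Sym2 (Fin n))} {q : ℝ} {E : ℕ} {Y Lam θ : ℝ} {T : Pat w}
  {S : Finset (Fin w ↪ Fin n)}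

/-- The host edges owned by `D` under a map. -/
def edgesOf (T : Pat w) (D : Finset (Fin w)) (φ : Fin w → Fin n) : Finset (Sym2 (Fin n)) :=
  D.biUnion fun i => (T.b i).image fun j => s(φ i, φ j)

theorem mem_edgesOf {D : Finset (Fin w)} {φ : Fin w → Fin n} {e : Sym2 (Fin n)} :
    e ∈ edgesOf T D φ ↔ ∃ i ∈ D, ∃ j ∈ T.b i, s(φ i, φ j) = e := by
  simp [edgesOf]

theorem edgesOf_subset (hG : Good H0 q E Y Lam θ T S) {φ : Fin w ↪ Fin n} (hφ : φ ∈ S)
    (D : Finset (Fin w)) : edgesOf T D φ ⊆ H0 := fun e he => by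
  obtain ⟨i, -, j, hj, rfl⟩ := mem_edgesOf.1 he
  exact hG.edge φ hφ i j hj

theorem card_edgesOf (hG : Good H0 q E Y Lam θ T S) (φ : Fin w ↪ Fin n) (D : Finset (Fin w)) :
    (edgesOf T D φ).card = T.ed D := by
  rw [edgesOf, card_biUnion]
  · refine sum_congr rfl fun i _ => card_image_of_injective _ fun a c h => ?_
    exact φ.injective (Sym2.congr_right.1 h)
  · intro i _ k _ hik
    rw [Function.onFun, Finset.disjoint_left]
    intro e he he'
    obtain ⟨a, ha, rfl⟩ := mem_image.1 he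
    obtain ⟨c, hc, h⟩ := mem_image.1 he'
    rcases Sym2.eq_iff.1 h with ⟨h1, -⟩ | ⟨h1, h2⟩
    · exact hik (φ.injective h1).symm
    · obtain rfl := φ.injective h1
      obtain rfl := φ.injective h2
      exact hG.anti _ _ ha hc

theorem rich_supp (hn : 0 < n) (hq : 0 ≤ q) (hR : Rich q H0) {K : Finset (Sym2 (Fin n))}
    (hK : K ⊆ H0) {W : Finset (Fin n)} (hW : supp K ⊆ W) :
    1 / 2 ≤ (n : ℝ) ^ W.card * q ^ K.card := by
  refine (hR K hK).trans (mul_le_mul_of_nonneg_right ?_ (pow_nonneg hq _))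
  exact_mod_cast (orb_card_le_supp K).trans (Nat.pow_le_pow_right hn (card_le_card hW))

/-- What the chain provides for one block. -/
structure Step (n : ℕ) (q : ℝ) (T : Pat w) (A B : Finset (Fin w)) : Prop where
  closedA : T.Closed A
  closedB : T.Closed B
  ssub : A ⊂ B
  low : 1 / 2 ≤ wt T n (4 * q) (B \ A)
  drop : ∀ C, T.Closed C → A ⊂ C → C ⊆ B → wt T n (4 * q) (B \ C) ≤ 1
  small : (B \ A).card ≤ 3 * T.ed (B \ A)

variable {A B : Finset (Fin w)}

/-- The out-roles in `A` of the new roles. -/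
def att (T : Pat w) (A B : Finset (Fin w)) : Finset (Fin w) := (B \ A).biUnion T.b ∩ A

theorem card_att_le : (att T A B).card ≤ T.ed (B \ A) :=
  (card_le_card inter_subset_left).trans card_biUnion_le

theorem Step.out_att (h : Step n q T A B) {i j : Fin w} (hi : i ∈ B \ A) (hj : j ∈ T.b i) :
    j ∈ B \ A ∨ j ∈ att T A B := by
  by_cases hA : j ∈ A
  · exact Or.inr (mem_inter.2 ⟨mem_biUnion.2 ⟨i, hi, hj⟩, hA⟩)
  · exact Or.inl (mem_sdiff.2 ⟨h.closedB.out_mem (mem_sdiff.1 hi).1 hj, hA⟩)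

theorem two_pow_le_of_half {k a R : ℕ} (hnR : n ≤ 2 ^ R)
    (h : (1 : ℝ) / 2 ≤ (n : ℝ) ^ a * (1 / 2) ^ k) : k ≤ a * R + 1 := by
  have h1 : (n : ℝ) ^ a ≤ 2 ^ (a * R) := by
    rw [mul_comm, pow_mul]
    exact pow_le_pow_left₀ (Nat.cast_nonneg _) (by exact_mod_cast hnR) a
  have h2 : (1 : ℝ) / 2 ≤ 2 ^ (a * R) * (1 / 2) ^ k :=
    h.trans (mul_le_mul_of_nonneg_right h1 (by positivity))
  rw [one_div_pow, mul_one_div, le_div_iff₀ (by positivity)] at h2
  have h3 : (2 : ℝ) ^ k ≤ 2 ^ (a * R + 1) := by rw [pow_succ]; linarith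
  exact (pow_le_pow_iff_right₀ one_lt_two).1 h3

open Classical in
/-- Few seeds meet every copy of a block over a fixed image of `A`. -/
theorem exists_seeds (hn : 2 ≤ n) (hq : 0 < q) (hR : Rich q H0) {R : ℕ} (hnR : n ≤ 2 ^ R)
    (hG : Good H0 q E Y Lam θ T S) (hB : Step n q T A B) (φ₁ : Fin w ↪ Fin n) :
    ∃ Z : Finset (Fin n × Fin w),
      ((Z.card : ℝ) ≤ (6 * wt T n q (B \ A) + (T.ed (B \ A) * R + 1 : ℕ)) *
        ((B \ A).card : ℝ) ^ 2) ∧
      ∀ φ ∈ fam S A φ₁, ∃ z ∈ Z, z.2 ∈ B \ A ∧ φ z.2 = z.1 := by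
  set D := B \ A with hD
  set e := T.ed D with he
  have hDne : D.Nonempty := sdiff_nonempty.2 fun h => hB.ssub.2 h
  have he1 : 1 ≤ e := by
    have := hB.small
    rw [← hD] at this
    have := hDne.card_pos
    omega
  set F := fam S A φ₁ with hF
  set good := F.powerset.filter fun (P : Finset (Fin w ↪ Fin n)) => ∀ φ ∈ P, ∀ ψ ∈ P, φ ≠ ψ →
    Disjoint (D.image φ) (D.image ψ) with hgood
  obtain ⟨P, hP, hmax⟩ := exists_max_image good Finset.card ⟨∅, mem_filter.2
    ⟨empty_mem_powerset _, fun _ h => absurd h (notMem_empty _)⟩⟩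
  obtain ⟨hPF, hdis⟩ := mem_filter.1 hP
  rw [mem_powerset] at hPF
  set d := P.card with hd
  refine ⟨(P.biUnion fun φ => D.image φ) ×ˢ D, ?_, ?_⟩
  swap
  · intro φ hφ
    by_contra hno
    push Not at hno
    have hnot : φ ∉ P := fun h => by
      obtain ⟨i, hi⟩ := hDne
      exact hno (φ i, i) (mem_product.2 ⟨mem_biUnion.2 ⟨φ, h, mem_image_of_mem _ hi⟩, hi⟩) hi rfl
    have hdφ : ∀ ψ ∈ P, Disjoint (D.image φ) (D.image ψ) := fun ψ hψ => by
      rw [Finset.disjoint_left]
      intro y hy hy'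
      obtain ⟨r, hr, rfl⟩ := mem_image.1 hy
      exact hno (φ r, r) (mem_product.2 ⟨mem_biUnion.2 ⟨ψ, hψ, hy'⟩, hr⟩) hr rfl
    have hins : insert φ P ∈ good := by
      refine mem_filter.2 ⟨mem_powerset.2 (insert_subset hφ hPF), fun x hx y hy hxy => ?_⟩
      rcases mem_insert.1 hx with h₁ | h₁ <;> rcases mem_insert.1 hy with h₂ | h₂
      · exact absurd (h₁.trans h₂.symm) hxy
      · exact h₁ ▸ hdφ y h₂
      · exact h₂ ▸ (hdφ x h₁).symm
      · exact hdis x h₁ y h₂ hxy
    have := hmax _ hins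
    rw [card_insert_of_notMem hnot] at this
    omega
  -- the number of disjoint copies
  have hout : ∀ {i j}, i ∈ D → j ∈ T.b i → j ∈ D ∨ j ∈ att T A B := fun hi hj => hB.out_att hi hj
  set J := P.biUnion fun φ => edgesOf T D φ with hJ
  have hJH : J ⊆ H0 := biUnion_subset.2 fun φ hφ => edgesOf_subset hG (mem_fam.1 (hPF hφ)).1 D
  have hJc : J.card = d * e := by
    rw [hJ, card_biUnion, sum_congr rfl fun φ _ => card_edgesOf hG φ D, sum_const, smul_eq_mul]
    intro φ hφ ψ hψ hne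
    rw [Function.onFun, Finset.disjoint_left]
    intro x hx hx'
    obtain ⟨i, hi, j, hj, rfl⟩ := mem_edgesOf.1 hx
    obtain ⟨i', hi', j', hj', heq⟩ := mem_edgesOf.1 hx'
    have hd' := Finset.disjoint_left.1 (hdis φ hφ ψ hψ hne) (mem_image_of_mem φ hi)
    rcases Sym2.eq_iff.1 heq with ⟨h1, -⟩ | ⟨-, h2⟩
    · exact hd' (h1 ▸ mem_image_of_mem ψ hi')
    · rcases hout hi' hj' with h | h
      · exact hd' (h2 ▸ mem_image_of_mem ψ h)
      · have hA : j' ∈ A := (mem_inter.1 h).2
        rw [(mem_fam.1 (hPF hψ)).2 j' hA, ← (mem_fam.1 (hPF hφ)).2 j' hA] at h2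
        exact (mem_sdiff.1 hi).2 (φ.injective h2 ▸ hA)
  set N := (univ : Finset (D → Fin n)) with hN
  set Φ : (att T A B → Fin n) → Finset (D → Fin n) → Finset (Sym2 (Fin n)) := fun g Q =>
    Q.biUnion fun f => D.attach.biUnion fun i => (T.b i.1).image fun j =>
      s(f i, if hj : j ∈ D then f ⟨j, hj⟩ else if hj' : j ∈ att T A B then g ⟨j, hj'⟩ else f i)
    with hΦ
  have horb : orb (pairAct n) J ⊆
      ((univ : Finset (att T A B → Fin n)) ×ˢ powersetCard d N).image fun x => Φ x.1 x.2 := by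
    intro K hK
    obtain ⟨σ, rfl⟩ := (mem_orb _).1 hK
    refine mem_image.2 ⟨(fun i => σ (φ₁ i), P.image fun φ (i : D) => σ (φ i)),
      mem_product.2 ⟨mem_univ _, mem_powersetCard.2 ⟨subset_univ _, ?_⟩⟩, ?_⟩
    · refine card_image_of_injOn fun φ hφ ψ hψ h => ?_
      by_contra hne
      obtain ⟨i, hi⟩ := hDne
      have h' : σ (φ i) = σ (ψ i) := congrFun h ⟨i, hi⟩
      exact Finset.disjoint_left.1 (hdis φ hφ ψ hψ hne) (mem_image_of_mem φ hi)
        (σ.injective h' ▸ mem_image_of_mem ψ hi)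
    · have key : ∀ φ ∈ P, (D.attach.biUnion fun i => (T.b i.1).image fun j =>
          s(σ (φ i.1), if hj : j ∈ D then σ (φ j) else
            if hj' : j ∈ att T A B then σ (φ₁ j) else σ (φ i.1))) =
          (edgesOf T D φ).image (Sym2.map σ) := by
        intro φ hφ
        have heq : ∀ i ∈ D, ∀ j ∈ T.b i, (if hj : j ∈ D then σ (φ j) else
            if hj' : j ∈ att T A B then σ (φ₁ j) else σ (φ i)) = σ (φ j) := by
          intro i hi j hj
          by_cases h1 : j ∈ D
          · rw [dif_pos h1]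
          · rcases hout hi hj with h | h
            · exact absurd h h1
            · rw [dif_neg h1, dif_pos h, (mem_fam.1 (hPF hφ)).2 j (mem_inter.1 h).2]
        ext x
        constructor
        · intro hx
          obtain ⟨⟨i, hi⟩, -, hx⟩ := mem_biUnion.1 hx
          obtain ⟨j, hj, rfl⟩ := mem_image.1 hx
          exact mem_image.2 ⟨_, mem_edgesOf.2 ⟨i, hi, j, hj, rfl⟩, by
            rw [heq i hi j hj, Sym2.map_mk]⟩
        · intro hx
          obtain ⟨y, hy, rfl⟩ := mem_image.1 hx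
          obtain ⟨i, hi, j, hj, rfl⟩ := mem_edgesOf.1 hy
          exact mem_biUnion.2 ⟨⟨i, hi⟩, mem_attach _ _, mem_image.2 ⟨j, hj, by
            rw [heq i hi j hj, Sym2.map_mk]⟩⟩
      rw [tr_pairAct, hJ, Finset.biUnion_image]
      simp only [hΦ, Finset.image_biUnion]
      exact biUnion_congr rfl fun φ hφ => key φ hφ
  have hcard : ((orb (pairAct n) J).card : ℝ) ≤
      (n : ℝ) ^ e * ((((n : ℝ) ^ D.card) ^ d) / d.factorial) := by
    refine le_trans (Nat.cast_le.2 ((card_le_card horb).trans card_image_le)) ?_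
    rw [card_product, card_powersetCard, Nat.cast_mul]
    refine mul_le_mul ?_ ?_ (Nat.cast_nonneg _) (by positivity)
    · simp only [card_univ, Fintype.card_fun, Fintype.card_fin, Fintype.card_coe, Nat.cast_pow]
      exact pow_le_pow_right₀ (by exact_mod_cast (by omega : 1 ≤ n)) card_att_le
    · refine (Nat.choose_le_pow_div d _).trans (le_of_eq ?_)
      simp [hN]
  have hmain := (hR J hJH).trans (mul_le_mul_of_nonneg_right hcard (pow_nonneg hq.le _))
  rw [hJc, mul_comm d e, pow_mul] at hmain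
  set W := wt T n q D with hW
  have hWpos : 0 < W := wt_pos (by omega) hq D
  have hdle : (d : ℝ) ≤ 6 * W + (e * R + 1 : ℕ) := by
    rcases le_or_gt (d : ℝ) (6 * W) with h | h
    · exact h.trans (le_add_of_nonneg_right (Nat.cast_nonneg _))
    · have hd0 : (0 : ℝ) < d := by linarith
      have h1 : (d : ℝ) ^ d / d.factorial ≤ 3 ^ d := by
        refine (Real.pow_div_factorial_le_exp _ hd0.le d).trans ?_
        rw [← mul_one (d : ℝ), Real.exp_nat_mul]
        exact pow_le_pow_left₀ (Real.exp_pos _).le Real.exp_one_lt_three.le d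
      have h2 : (1 : ℝ) / 2 ≤ (n : ℝ) ^ e * (1 / 2) ^ d := by
        refine hmain.trans ?_
        rw [mul_assoc]
        refine mul_le_mul_of_nonneg_left ?_ (by positivity)
        calc ((n : ℝ) ^ D.card) ^ d / d.factorial * (q ^ e) ^ d
            = (W / d) ^ d * ((d : ℝ) ^ d / d.factorial) := by
              rw [hW, wt, ← he, div_pow, mul_pow]
              field_simp
          _ ≤ (W / d) ^ d * 3 ^ d := mul_le_mul_of_nonneg_left h1 (by positivity)
          _ = (3 * W / d) ^ d := by rw [← mul_pow]; ring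
          _ ≤ _ := by
              refine pow_le_pow_left₀ (by positivity) ?_ d
              rw [div_le_iff₀ hd0]; linarith
      have h3 : ((d : ℕ) : ℝ) ≤ (e * R + 1 : ℕ) := Nat.cast_le.2 (two_pow_le_of_half hnR h2)
      linarith
  rw [card_product, Nat.cast_mul, sq, ← mul_assoc]
  refine mul_le_mul_of_nonneg_right ?_ (Nat.cast_nonneg _)
  refine le_trans (Nat.cast_le.2 card_biUnion_le) ?_
  rw [Finset.sum_congr rfl fun φ _ => card_image_of_injective D φ.injective, sum_const,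
    smul_eq_mul, Nat.cast_mul]
  exact mul_le_mul_of_nonneg_right hdle (Nat.cast_nonneg _)

open Classical in
/-- The copies through a closed seed lie in few host edges. -/
theorem exists_local (hn : 2 ≤ n) (hq : 0 < q) (hq4 : 4 * q ≤ 1) (hR : Rich q H0) {R : ℕ}
    (hnR : n ≤ 2 ^ R) (hG : Good H0 q E Y Lam θ T S) (hB : Step n q T A B)
    {C₀ : Finset (Fin w)} (hC₀ : T.Closed C₀) (hAC : A ⊂ C₀) (hCB : C₀ ⊆ B)
    (φ₁ : Fin w ↪ Fin n) :
    ∃ U : Finset (Sym2 (Fin n)), U.card ≤ 2 * (T.ed (B \ A) * R) ∧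
      ∀ φ ∈ fam S C₀ φ₁, edgesOf T (B \ A) φ ⊆ U := by
  set D := B \ A with hD
  set e := T.ed D with he
  set F := fam S C₀ φ₁ with hF
  set W₀ := (att T A B).image φ₁ ∪ (C₀ \ A).image φ₁ with hW₀
  set WW : Finset (Fin w ↪ Fin n) → Finset (Fin n) := fun P =>
    W₀ ∪ P.biUnion fun φ => D.image φ with hWW
  set UU : Finset (Fin w ↪ Fin n) → Finset (Sym2 (Fin n)) := fun P =>
    P.biUnion fun φ => edgesOf T D φ with hUU
  have hW₀c : W₀.card ≤ 4 * e := by
    have h1 := card_union_le ((att T A B).image φ₁) ((C₀ \ A).image φ₁)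
    have h2 : ((att T A B).image φ₁).card ≤ e := card_image_le.trans card_att_le
    have h3 : ((C₀ \ A).image φ₁).card ≤ D.card :=
      card_image_le.trans (card_le_card (sdiff_subset_sdiff hCB subset_rfl))
    have h4 := hB.small
    rw [← hD] at h4
    rw [hW₀]
    omega
  set ok := F.powerset.filter fun P =>
    (n : ℝ) ^ (WW P).card * (4 * q) ^ (UU P).card ≤ (n : ℝ) ^ (4 * e) with hok
  have hn1 : (1 : ℝ) ≤ n := by exact_mod_cast (by omega : 1 ≤ n)
  obtain ⟨P, hP, hmax⟩ := exists_max_image ok (fun P => (UU P).card)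
    ⟨∅, mem_filter.2 ⟨empty_mem_powerset _, by
      simp only [hWW, hUU, biUnion_empty, union_empty, card_empty, pow_zero, mul_one]
      exact pow_le_pow_right₀ hn1 hW₀c⟩⟩
  obtain ⟨hPF, hPok⟩ := mem_filter.1 hP
  rw [mem_powerset] at hPF
  set U := UU P with hU
  set W := WW P with hW
  have hsupp : supp U ⊆ W := by
    intro x hx
    obtain ⟨ed, hed, hxe⟩ := mem_supp.1 hx
    obtain ⟨φ, hφ, hed⟩ := mem_biUnion.1 hed
    obtain ⟨i, hi, j, hj, rfl⟩ := mem_edgesOf.1 hed
    rcases Sym2.mem_iff.1 hxe with rfl | rfl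
    · exact mem_union_right _ (mem_biUnion.2 ⟨φ, hφ, mem_image_of_mem _ hi⟩)
    · rcases hB.out_att hi hj with h | h
      · exact mem_union_right _ (mem_biUnion.2 ⟨φ, hφ, mem_image_of_mem _ h⟩)
      · refine mem_union_left _ (mem_union_left _ (mem_image.2 ⟨j, h, ?_⟩))
        exact ((mem_fam.1 (hPF hφ)).2 j (hAC.1 (mem_inter.1 h).2)).symm
  refine ⟨U, ?_, ?_⟩
  · have hUH : U ⊆ H0 := biUnion_subset.2 fun φ hφ => edgesOf_subset hG (mem_fam.1 (hPF hφ)).1 D
    have h1 := rich_supp (by omega) hq.le hR hUH hsupp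
    have h2 : (1 : ℝ) / 2 ≤ (n : ℝ) ^ (4 * e) * (1 / 2) ^ (2 * U.card) := by
      have h3 : (n : ℝ) ^ W.card * q ^ U.card =
          (n : ℝ) ^ W.card * (4 * q) ^ U.card * (1 / 2) ^ (2 * U.card) := by
        rw [pow_mul, mul_assoc ((n : ℝ) ^ W.card), ← mul_pow]
        congr 1
        ring
      rw [h3] at h1
      exact h1.trans (mul_le_mul_of_nonneg_right hPok (by positivity))
    have h3 := two_pow_le_of_half hnR h2
    rw [mul_assoc] at h3
    omega
  intro φ hφ
  by_contra hnot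
  obtain ⟨hφS, hφC⟩ := mem_fam.1 hφ
  have hφA : ∀ i ∈ A, φ i = φ₁ i := fun i hi => hφC i (hAC.1 hi)
  -- the old part of `φ`
  set C := A ∪ B.filter (fun i => φ i ∈ W) with hC
  have hCB' : C ⊆ B := union_subset hB.ssub.1 (filter_subset _ _)
  have hC₀C : C₀ ⊆ C := fun i hi => by
    by_cases hA : i ∈ A
    · exact mem_union_left _ hA
    · refine mem_union_right _ (mem_filter.2 ⟨hCB hi, ?_⟩)
      rw [hφC i hi]
      exact mem_union_left _ (mem_union_right _ (mem_image_of_mem _ (mem_sdiff.2 ⟨hi, hA⟩)))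
  have hCc : T.Closed C := by
    intro i hi
    rcases mem_union.1 hi with hA | hi
    · exact (hB.closedA i hA).trans subset_union_left
    by_cases hA : i ∈ A
    · exact (hB.closedA i hA).trans subset_union_left
    obtain ⟨hiB, hiW⟩ := mem_filter.1 hi
    rcases mem_union.1 hiW with h | h
    · rcases mem_union.1 h with h | h <;> obtain ⟨k, hk, hke⟩ := mem_image.1 h
      · rw [← hφA k (mem_inter.1 hk).2] at hke
        exact absurd (φ.injective hke ▸ (mem_inter.1 hk).2) hA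
      · rw [← hφC k (mem_sdiff.1 hk).1] at hke
        exact (hC₀ i (φ.injective hke ▸ (mem_sdiff.1 hk).1)).trans hC₀C
    · obtain ⟨ψ, hψ, hψi⟩ := mem_biUnion.1 h
      obtain ⟨j, hj, hji⟩ := mem_image.1 hψi
      obtain ⟨hψS, hψC⟩ := mem_fam.1 (hPF hψ)
      intro k hk
      have hmem : φ k ∈ (T.cell (T.blk j)).image ψ :=
        hG.same φ hφS ψ hψS i j hji.symm ▸ mem_image_of_mem φ hk
      obtain ⟨l, hl, hlk⟩ := mem_image.1 hmem
      by_cases hlA : l ∈ A
      · rw [hψC l (hAC.1 hlA), ← hφA l hlA] at hlk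
        exact mem_union_left _ (φ.injective hlk ▸ hlA)
      · refine mem_union_right _ (mem_filter.2 ⟨hB.closedB i hiB hk, ?_⟩)
        rw [← hlk]
        exact mem_union_right _ (mem_biUnion.2 ⟨ψ, hψ, mem_image_of_mem _
          (mem_sdiff.2 ⟨hB.closedB j (mem_sdiff.1 hj).1 hl, hlA⟩)⟩)
  have hins : insert φ P ∈ ok := by
    refine mem_filter.2 ⟨mem_powerset.2 (insert_subset hφ hPF), ?_⟩
    have hWins : WW (insert φ P) ⊆ W ∪ (B \ C).image φ := by
      intro x hx
      simp only [hWW, biUnion_insert, mem_union] at hx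
      rcases hx with hx | hx | hx
      · exact mem_union_left _ (mem_union_left _ hx)
      · obtain ⟨i, hi, rfl⟩ := mem_image.1 hx
        obtain ⟨hiB, hiA⟩ := mem_sdiff.1 hi
        by_cases hiC : i ∈ C
        · rcases mem_union.1 hiC with h | h
          · exact absurd h hiA
          · exact mem_union_left _ (mem_filter.1 h).2
        · exact mem_union_right _ (mem_image_of_mem _ (mem_sdiff.2 ⟨hiB, hiC⟩))
      · exact mem_union_left _ (mem_union_right _ hx)
    have hWc : (WW (insert φ P)).card ≤ W.card + (B \ C).card :=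
      (card_le_card hWins).trans ((card_union_le _ _).trans (Nat.add_le_add_left card_image_le _))
    have hdisj : Disjoint U (edgesOf T (B \ C) φ) := by
      rw [Finset.disjoint_right]
      intro x hx hxU
      obtain ⟨i, hi, j, hj, rfl⟩ := mem_edgesOf.1 hx
      obtain ⟨hiB, hiC⟩ := mem_sdiff.1 hi
      exact hiC (mem_union_right _ (mem_filter.2
        ⟨hiB, hsupp (mem_supp.2 ⟨_, hxU, Sym2.mem_mk_left _ _⟩)⟩))
    have hUc : U.card + T.ed (B \ C) ≤ (UU (insert φ P)).card := by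
      rw [← card_edgesOf hG φ, ← card_union_of_disjoint hdisj]
      refine card_le_card (union_subset ?_ ?_)
      · exact biUnion_subset_biUnion_of_subset_left _ (subset_insert _ _)
      · intro x hx
        obtain ⟨i, hi, j, hj, rfl⟩ := mem_edgesOf.1 hx
        exact mem_biUnion.2 ⟨φ, mem_insert_self _ _, mem_edgesOf.2 ⟨i, mem_sdiff.2
          ⟨(mem_sdiff.1 hi).1, fun h => (mem_sdiff.1 hi).2 (mem_union_left _ h)⟩, j, hj, rfl⟩⟩
    have hstep : (n : ℝ) ^ (B \ C).card * (4 * q) ^ T.ed (B \ C) ≤ 1 := by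
      by_cases hCeq : C = B
      · simp [hCeq, Pat.ed]
      · exact hB.drop C hCc (hAC.trans_subset hC₀C) hCB'
    calc (n : ℝ) ^ (WW (insert φ P)).card * (4 * q) ^ (UU (insert φ P)).card
        ≤ (n : ℝ) ^ (W.card + (B \ C).card) * (4 * q) ^ (U.card + T.ed (B \ C)) :=
          mul_le_mul (pow_le_pow_right₀ hn1 hWc)
            (pow_le_pow_of_le_one (by linarith) hq4 hUc) (by positivity) (by positivity)
      _ = ((n : ℝ) ^ W.card * (4 * q) ^ U.card) *
            ((n : ℝ) ^ (B \ C).card * (4 * q) ^ T.ed (B \ C)) := by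
          rw [pow_add, pow_add]; ring
      _ ≤ (n : ℝ) ^ W.card * (4 * q) ^ U.card :=
          mul_le_of_le_one_right (by positivity) hstep
      _ ≤ _ := hPok
  refine absurd (hmax _ hins) (not_le.2 (card_lt_card ?_))
  refine (ssubset_iff_of_subset
    (biUnion_subset_biUnion_of_subset_left _ (subset_insert _ _))).2 ?_
  obtain ⟨x, hx, hxU⟩ := not_subset.1 hnot
  exact ⟨x, mem_biUnion.2 ⟨φ, mem_insert_self _ _, hx⟩, hxU⟩

end Vale.Agent.P064.Chain
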