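import Vale.Agent.P064.Chain.Explore

/-!
The bound for one block and for the whole chain.
-/

namespace Vale.Agent.P064.Chain

open Finset Vale.Agent.P064

variable {n w : ℕ} {H0 : Finset (Sym2 (Fin n))} {q : ℝ} {R E : ℕ} {Y Lam θ : ℝ} {T : Pat w}
  {S : Finset (Fin w ↪ Fin n)}

/-- The numerical hypotheses of the chain; a step of the exploration costs `Z = 12 R ^ 3`. -/
structure Num (n : ℕ) (q : ℝ) (R E : ℕ) (Y Lam θ : ℝ) : Prop where
  hn : 2 ≤ n
  hq : 0 < q
  hq4 : 4 * q ≤ 1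
  hnR : n ≤ 2 ^ R
  hθ : 0 < θ
  hθ1 : θ ≤ 1
  hY : 1 ≤ Y
  hE : (12 * (R : ℝ) ^ 3) ≤ Y ^ E
  hLam : (12 * (R : ℝ) ^ 3) ^ 2 ≤ Lam
  hlight : ∀ L e : ℕ, Lam ^ L * θ ^ e ≤ 1 → (12 * (R : ℝ) ^ 3) ^ L ≤ Y ^ e

theorem Num.R_pos (h : Num n q R E Y Lam θ) : 1 ≤ R := by
  rcases Nat.eq_zero_or_pos R with h0 | h0
  · have h1 := h.hn.trans h.hnR
    rw [h0, pow_zero] at h1
    omega
  · exact h0

theorem Num.one_le_Z (h : Num n q R E Y Lam θ) : (1 : ℝ) ≤ 12 * (R : ℝ) ^ 3 := by
  have : (1 : ℝ) ≤ (R : ℝ) ^ 3 := one_le_pow₀ (by exact_mod_cast h.R_pos)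
  linarith

theorem roots_spec (hG : Good H0 q E Y Lam θ T S) {A B : Finset (Fin w)} (hA : T.Closed A)
    (hB : T.Closed B) {r : Fin w} (hr : r ∈ pend T B A) :
    T.blk r = r ∧ T.mem r ⊆ B \ A := by
  obtain ⟨hrB, hrA⟩ := mem_filter.1 hr
  obtain ⟨i, hi, rfl⟩ := mem_image.1 hrB
  refine ⟨hG.idem i, fun k hk => mem_sdiff.2 ⟨hB.blk_mem hi (Pat.mem_mem.1 hk), fun hkA => ?_⟩⟩
  exact hrA (Pat.mem_mem.1 hk ▸ hA k hkA)

theorem biUnion_pend {A B : Finset (Fin w)} (hG : Good H0 q E Y Lam θ T S) (hA : T.Closed A)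
    (hB : T.Closed B) : (pend T B A).biUnion T.mem = B \ A := by
  ext i
  constructor
  · intro h
    obtain ⟨r, hr, hi⟩ := mem_biUnion.1 h
    exact (roots_spec hG hA hB hr).2 hi
  · intro h
    obtain ⟨hiB, hiA⟩ := mem_sdiff.1 h
    exact mem_biUnion.2 ⟨T.blk i, mem_filter.2 ⟨mem_image_of_mem _ hiB,
      fun hh => hiA (hh (Pat.mem_subset_cell _ (Pat.mem_self i)))⟩, Pat.mem_self i⟩

theorem mem_pairwise (s : Finset (Fin w)) : (s : Set (Fin w)).PairwiseDisjoint T.mem :=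
  fun r _ r' _ hne => by
    rw [Function.onFun, Finset.disjoint_left]
    exact fun i hi hi' => hne ((Pat.mem_mem.1 hi).symm.trans (Pat.mem_mem.1 hi'))

theorem ed_biUnion_mem (s : Finset (Fin w)) :
    T.ed (s.biUnion T.mem) = ∑ r ∈ s, T.ed (T.mem r) := sum_biUnion (mem_pairwise s)

theorem wt_biUnion_mem (p : ℝ) (s : Finset (Fin w)) :
    wt T n p (s.biUnion T.mem) = ∏ r ∈ s, wt T n p (T.mem r) := by
  simp only [wt]
  rw [card_biUnion (mem_pairwise s), ed_biUnion_mem, prod_mul_distrib, prod_pow_eq_pow_sum,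
    prod_pow_eq_pow_sum]

theorem pot_self {A B : Finset (Fin w)} (hG : Good H0 q E Y Lam θ T S) (hA : T.Closed A)
    (hB : T.Closed B) : pot T B A = T.ed (B \ A) := by
  rw [pot, ← ed_biUnion_mem, biUnion_pend hG hA hB]

theorem sdiff_card_le {A B : Finset (Fin w)} (hG : Good H0 q E Y Lam θ T S)
    (hiso : ∀ i ∈ B \ A, T.ed (T.mem (T.blk i)) = 0 → i ∈ (B \ A).biUnion T.b)
    (hA : T.Closed A) (hB : T.Closed B) :
    (B \ A).card ≤ 3 * T.ed (B \ A) := by
  have h1 : B \ A ⊆ ((pend T B A).filter fun r => T.ed (T.mem r) ≠ 0).biUnion T.mem ∪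
      (B \ A).biUnion T.b := fun i hi => by
    by_cases h0 : T.ed (T.mem (T.blk i)) = 0
    · exact mem_union_right _ (hiso i hi h0)
    · refine mem_union_left _ (mem_biUnion.2 ⟨T.blk i, mem_filter.2 ⟨?_, h0⟩, Pat.mem_self i⟩)
      exact mem_filter.2 ⟨mem_image_of_mem _ (mem_sdiff.1 hi).1, fun hh =>
        (mem_sdiff.1 hi).2 (hh (Pat.mem_subset_cell _ (Pat.mem_self i)))⟩
  have h2 : (((pend T B A).filter fun r => T.ed (T.mem r) ≠ 0).biUnion T.mem).card ≤
      2 * T.ed (B \ A) := by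
    rw [← pot_self hG hA hB, pot, mul_sum]
    refine card_biUnion_le.trans ((sum_le_sum fun r hr => ?_).trans
      (sum_le_sum_of_subset (filter_subset _ _)))
    have := (mem_filter.1 hr).2
    rcases hG.size r with h | h <;> omega
  have h3 : ((B \ A).biUnion T.b).card ≤ T.ed (B \ A) := card_biUnion_le
  have := (card_le_card h1).trans (card_union_le _ _)
  omega

/-- A step of the chain leaves no role untouched by its edges. -/
theorem no_isolated (hn : 2 ≤ n) (hG : Good H0 q E Y Lam θ T S) {A B O : Finset (Fin w)}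
    (hB : T.Closed B) (hO : T.Closed O)
    (hdrop : ∀ C, T.Closed C → A ⊂ C → C ⊆ B → wt T n (4 * q) (B \ C) ≤ 1)
    {i : Fin w} (hi : i ∈ B \ O) (h0 : T.ed (T.mem (T.blk i)) = 0)
    (hne : O ⊆ B) (hstrict : A ⊂ O ∨ A ⊂ B.erase i) : i ∈ (B \ O).biUnion T.b := by
  by_contra hnot
  obtain ⟨hiB, hiO⟩ := mem_sdiff.1 hi
  have hsingle : ∀ k, T.blk k = T.blk i → k = i := fun k hk => by
    have hc : (T.mem (T.blk i)).card ≤ 1 := by
      rcases hG.size (T.blk i) with h | h <;> omega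
    exact card_le_one.1 hc k (Pat.mem_mem.2 hk) i (Pat.mem_self i)
  have hC : T.Closed (B.erase i) := by
    intro k hk l hl
    obtain ⟨hki, hkB⟩ := mem_erase.1 hk
    refine mem_erase.2 ⟨fun hli => ?_, hB k hkB hl⟩
    subst hli
    rcases mem_union.1 hl with h | h
    · exact hki (hsingle k (Pat.mem_mem.1 h).symm)
    · obtain ⟨m, hm, hlm⟩ := mem_biUnion.1 h
      refine hnot (mem_biUnion.2 ⟨m, mem_sdiff.2 ⟨hB.blk_mem hkB (Pat.mem_mem.1 hm), fun hmO => ?_⟩,
        hlm⟩)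
      exact hiO (hO.out_mem hmO hlm)
  have hAC : A ⊂ B.erase i := by
    rcases hstrict with h | h
    · exact h.trans_subset fun x hx => mem_erase.2 ⟨fun e => hiO (e ▸ hx), hne hx⟩
    · exact h
  have h1 := hdrop _ hC hAC (erase_subset _ _)
  rw [show B \ B.erase i = {i} by rw [sdiff_erase hiB]; simp] at h1
  have h2 : T.ed {i} = 0 := by
    refine Nat.le_zero.1 (le_trans (ed_mono ?_) (le_of_eq h0))
    simpa using Pat.mem_self i
  rw [wt, h2, card_singleton, pow_zero, mul_one, pow_one] at h1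
  have : (2 : ℝ) ≤ n := by exact_mod_cast hn
  linarith

variable {A B : Finset (Fin w)}

/-- The number of non-critical blocks with few edges. -/
def lights (T : Pat w) (E : ℕ) (B A : Finset (Fin w)) : ℕ :=
  ((pend T B A).filter fun r => r ∉ T.crit ∧ T.ed (T.mem r) < E).card

/-- The number of blocks with at least `E` edges that are not critical. -/
def marks (T : Pat w) (E : ℕ) (B A : Finset (Fin w)) : ℕ :=
  ((pend T B A).filter fun r => r ∉ T.crit ∧ E ≤ T.ed (T.mem r)).card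

theorem rpot_eq (B A : Finset (Fin w)) : rpot T B A = lights T E B A + marks T E B A := by
  rw [rpot, lights, marks, ← card_union_of_disjoint]
  · congr 1
    ext r
    simp only [mem_filter, mem_union]
    by_cases h : T.ed (T.mem r) < E
    · simp [h, Nat.not_le.2 h]
    · simp [h, Nat.le_of_not_lt h]
  · exact disjoint_filter.2 fun r _ h => fun h' => absurd h'.2 (Nat.not_le.2 h.2)

theorem marks_pow (hN : Num n q R E Y Lam θ) (hG : Good H0 q E Y Lam θ T S) (hA : T.Closed A)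
    (hB : T.Closed B) :
    (12 * (R : ℝ) ^ 3) ^ marks T E B A ≤ Y ^ T.ed (B \ A) := by
  refine (pow_le_pow_left₀ (by positivity) hN.hE _).trans ?_
  rw [← pow_mul, ← pot_self hG hA hB]
  refine pow_le_pow_right₀ hN.hY ?_
  rw [marks, mul_comm, ← smul_eq_mul, ← sum_const]
  exact (sum_le_sum fun r hr => (mem_filter.1 hr).2.2).trans
    (sum_le_sum_of_subset (filter_subset _ _))

theorem light_pow (hN : Num n q R E Y Lam θ) (hG : Good H0 q E Y Lam θ T S) (hS : Step n q T A B)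
    {b₀ : Fin w} (hb : b₀ ∈ pend T B A) (hbx : T.xout b₀ ⊆ A) :
    (12 * (R : ℝ) ^ 3) ^ (((pend T B A).erase b₀).filter
      fun r => r ∉ T.crit ∧ T.ed (T.mem r) < E).card ≤ Y ^ T.ed (B \ A) := by
  set s := (pend T B A).erase b₀ with hs
  obtain ⟨hbr, hbB⟩ := roots_spec hG hS.closedA hS.closedB hb
  set C := A ∪ T.mem b₀ with hC
  have hCc : T.Closed C := fun i hi => by
    rcases mem_union.1 hi with h | h
    · exact (hS.closedA i h).trans subset_union_left
    · rw [Pat.mem_mem.1 h]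
      intro k hk
      by_cases hkm : k ∈ T.mem b₀
      · exact mem_union_right _ hkm
      · exact mem_union_left _ (hbx (mem_sdiff.2 ⟨hk, hkm⟩))
  have hBC : B \ C = s.biUnion T.mem := by
    ext i
    rw [hs, mem_biUnion]
    constructor
    · intro hi
      obtain ⟨hiB, hiC⟩ := mem_sdiff.1 hi
      have : i ∈ (pend T B A).biUnion T.mem := by
        rw [biUnion_pend hG hS.closedA hS.closedB]
        exact mem_sdiff.2 ⟨hiB, fun h => hiC (mem_union_left _ h)⟩
      obtain ⟨r, hr, hir⟩ := mem_biUnion.1 this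
      exact ⟨r, mem_erase.2 ⟨fun e => hiC (mem_union_right _ (e ▸ hir)), hr⟩, hir⟩
    · rintro ⟨r, hr, hir⟩
      obtain ⟨hne, hr⟩ := mem_erase.1 hr
      obtain ⟨hiB, hiA⟩ := mem_sdiff.1 ((roots_spec hG hS.closedA hS.closedB hr).2 hir)
      refine mem_sdiff.2 ⟨hiB, fun h => ?_⟩
      rcases mem_union.1 h with h | h
      · exact hiA h
      · exact hne ((Pat.mem_mem.1 hir).symm.trans (Pat.mem_mem.1 h))
  have hAC : A ⊂ C := ⟨subset_union_left, fun h => (mem_sdiff.1 (hbB (Pat.mem_mem.2 hbr))).2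
    (h (mem_union_right _ (Pat.mem_mem.2 hbr)))⟩
  have hdrop := hS.drop C hCc hAC (union_subset hS.ssub.1 (hbB.trans sdiff_subset))
  rw [hBC, wt_biUnion_mem] at hdrop
  set s' := s.filter fun r => r ∉ T.crit ∧ T.ed (T.mem r) < E with hs'
  have hLam0 : 0 ≤ Lam := le_trans (by positivity) hN.hLam
  have hq0 := hN.hq
  have hprod : Lam ^ s'.card * θ ^ T.ed (B \ C) ≤ ∏ r ∈ s, wt T n (4 * q) (T.mem r) := by
    rw [hBC, ed_biUnion_mem, ← prod_pow_eq_pow_sum,
      ← prod_filter_mul_prod_filter_not s (fun r => r ∉ T.crit ∧ T.ed (T.mem r) < E), ← mul_assoc,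
      ← prod_const, ← prod_mul_distrib,
      ← prod_filter_mul_prod_filter_not s (fun r => r ∉ T.crit ∧ T.ed (T.mem r) < E)
        (fun r => wt T n (4 * q) (T.mem r))]
    have hup : ∀ r, wt T n q (T.mem r) ≤ wt T n (4 * q) (T.mem r) := fun r => by
      rw [wt, wt]
      gcongr
      linarith
    refine mul_le_mul (prod_le_prod (fun r _ => ?_) fun r hr => ?_)
      (prod_le_prod (fun r _ => ?_) fun r hr => ?_) (prod_nonneg fun r _ => ?_)
      (prod_nonneg fun r _ => ?_)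
    · exact mul_nonneg hLam0 (pow_nonneg hN.hθ.le _)
    · obtain ⟨hr, hcr, hlt⟩ := mem_filter.1 hr
      have hw := (hG.weight r (roots_spec hG hS.closedA hS.closedB (mem_erase.1 hr).2).1).2 hcr
      exact (hw.resolve_right (Nat.not_le.2 hlt)).trans (hup r)
    · exact pow_nonneg hN.hθ.le _
    · exact (hG.weight r (roots_spec hG hS.closedA hS.closedB
        (mem_erase.1 (mem_filter.1 hr).1).2).1).1.trans (hup r)
    · exact pow_nonneg hN.hθ.le _
    · rw [wt]; positivity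
  refine (hN.hlight _ _ (hprod.trans hdrop)).trans (pow_le_pow_right₀ hN.hY ?_)
  exact ed_mono (sdiff_subset_sdiff subset_rfl subset_union_left)

/-- A lowest block has all its outs in `A`. -/
theorem bottom (hG : Good H0 q E Y Lam θ T S) (hA : T.Closed A) {C : Finset (Fin w)}
    (hC : T.Closed C) {r : Fin w} (hr : r ∈ pend T C A)
    (hmin : ∀ r' ∈ pend T C A, T.rk r ≤ T.rk r') : T.xout r ⊆ A := by
  intro l hl
  obtain ⟨hlc, hlm⟩ := mem_sdiff.1 hl
  obtain ⟨hrr, hrC⟩ := roots_spec hG hA hC hr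
  by_contra hlA
  have hlC : l ∈ C := hC r (mem_sdiff.1 (hrC (Pat.mem_mem.2 hrr))).1 (by rwa [hrr])
  have hle := hmin (T.blk l) (mem_filter.2 ⟨mem_image_of_mem _ hlC, fun h =>
    hlA (h (Pat.mem_subset_cell _ (Pat.mem_self l)))⟩)
  rcases mem_union.1 hlc with h | h
  · exact hlm h
  · obtain ⟨m, hm, hlb⟩ := mem_biUnion.1 h
    rcases hG.rank m l hlb with h' | h'
    · exact hlm (Pat.mem_mem.2 (h'.trans (Pat.mem_mem.1 hm)))
    · rw [Pat.mem_mem.1 hm] at h'
      omega

theorem pend_nonempty (hG : Good H0 q E Y Lam θ T S) (hS : Step n q T A B) :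
    (pend T B A).Nonempty := by
  obtain ⟨i, hi⟩ : (B \ A).Nonempty := sdiff_nonempty.2 fun h => hS.ssub.2 h
  rw [← biUnion_pend hG hS.closedA hS.closedB] at hi
  obtain ⟨r, hr, -⟩ := mem_biUnion.1 hi
  exact ⟨r, hr⟩

theorem one_le_ed (hS : Step n q T A B) : 1 ≤ T.ed (B \ A) := by
  have := hS.small
  have : 0 < (B \ A).card := card_pos.2 (sdiff_nonempty.2 fun h => hS.ssub.2 h)
  omega

theorem one_le_wt (hS : Step n q T A B) :
    1 ≤ 2 * 4 ^ T.ed (B \ A) * wt T n q (B \ A) := by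
  have h := hS.low
  rw [wt_scale] at h
  linarith

open Classical in
/-- A block of critical blocks only. -/
theorem crit_block (hN : Num n q R E Y Lam θ) (hG : Good H0 q E Y Lam θ T S) (hS : Step n q T A B)
    (hm0 : rpot T B A = 0) (φ₁ : Fin w ↪ Fin n) :
    (cnt B (fam S A φ₁) : ℝ) ≤ wt T n q (B \ A) * (5000 * Y ^ 6) ^ T.ed (B \ A) := by
  have hY := hN.hY
  have hpend := pend_nonempty hG hS
  have he1 := one_le_ed hS
  have hlow := one_le_wt hS
  have hW0 : 0 < wt T n q (B \ A) := wt_pos (by linarith [hN.hn]) hN.hq _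
  set F := fam S A φ₁ with hF
  set W := wt T n q (B \ A) with hW
  set e := T.ed (B \ A) with he
  obtain ⟨r, hr, hmin⟩ := exists_min_image (pend T B A) T.rk hpend
  have hallc : ∀ r ∈ pend T B A, r ∈ T.crit := fun r hr => by
    by_contra hc
    exact notMem_empty r (card_eq_zero.1 hm0 ▸ mem_filter.2 ⟨hr, hc⟩)
  obtain ⟨hrr, hrB⟩ := roots_spec hG hS.closedA hS.closedB hr
  have hrmem : r ∈ T.mem r := Pat.mem_mem.2 hrr
  set O := A ∪ T.cell r with hO
  have hOB : O ⊆ B := union_subset hS.ssub.1 (by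
    rw [← hrr]; exact hS.closedB r (mem_sdiff.1 (hrB hrmem)).1)
  have hAO : A ⊂ O := ⟨subset_union_left, fun h => (mem_sdiff.1 (hrB hrmem)).2
    (h (mem_union_right _ (Pat.mem_subset_cell _ hrmem)))⟩
  have hbx := bottom hG hS.closedA hS.closedB hr hmin
  have hconst : ∀ φ ∈ F, ∀ ψ ∈ F, ∀ i ∈ A, φ i = ψ i := fun φ hφ ψ hψ i hi => by
    rw [(mem_fam.1 hφ).2 i hi, (mem_fam.1 hψ).2 i hi]
  rcases F.eq_empty_or_nonempty with hFe | ⟨φ₀, hφ₀⟩
  · rw [hFe]
    simp only [cnt, image_empty, card_empty, Nat.cast_zero]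
    positivity
  have hcd : (cnt O F : ℝ) ≤ Y ^ T.ed (T.mem r) := by
    refine le_trans (Nat.cast_le.2 ((cnt_union_le hconst).trans (cnt_mono _ ?_)))
      (hG.cdet r (hallc r hr) φ₀ (mem_fam.1 hφ₀).1)
    exact fun φ hφ => mem_filter.2 ⟨(mem_fam.1 hφ).1, fun k hk => hconst φ hφ φ₀ hφ₀ k (hbx hk)⟩
  have hrest : ∀ φ ∈ F, (cnt B (fam F O φ) : ℝ) ≤ Y ^ pot T B O := by
    intro φ hφ
    have h := explore hG hY hS.closedB (A := A) (U := H0) (Δ := 1) le_rfl (le_refl (1 : ℝ))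
      ?_ _ O (fam F O φ) le_rfl hAO hOB
      ((filter_subset _ _).trans (filter_subset _ _))
      (fun ψ hψ => edgesOf_subset hG (mem_fam.1 (mem_fam.1 hψ).1).1 _) ?_
    · simpa using h
    · intro O' hc hAO' hO'B ψ _ _ _ hcr
      exfalso
      obtain ⟨x, hxB, hxO⟩ := exists_of_ssubset hO'B
      have hne : (pend T B O').Nonempty := ⟨T.blk x, mem_filter.2 ⟨mem_image_of_mem _ hxB,
        fun h => hxO (h (Pat.mem_subset_cell _ (Pat.mem_self x)))⟩⟩
      obtain ⟨r', hr', hmin'⟩ := exists_min_image (pend T B O') T.rk hne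
      refine hcr r' hr' (hallc r' (pend_anti hAO'.1 hr')) fun l hl => ?_
      obtain ⟨hlc, hlm⟩ := mem_sdiff.1 hl
      by_contra hlO
      obtain ⟨hr'r, hr'B⟩ := roots_spec hG hc hS.closedB hr'
      have hlB : l ∈ B := hS.closedB r' (mem_sdiff.1 (hr'B (Pat.mem_mem.2 hr'r))).1
        (by rwa [hr'r])
      have hle := hmin' (T.blk l) (mem_filter.2 ⟨mem_image_of_mem _ hlB, fun h =>
        hlO (h (Pat.mem_subset_cell _ (Pat.mem_self l)))⟩)
      rcases mem_union.1 hlc with h | h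
      · exact hlm h
      · obtain ⟨m, hm, hlb⟩ := mem_biUnion.1 h
        rcases hG.rank m l hlb with h' | h'
        · exact hlm (Pat.mem_mem.2 (h'.trans (Pat.mem_mem.1 hm)))
        · rw [Pat.mem_mem.1 hm] at h'
          omega
    · intro ψ hψ ψ' hψ' i hi
      rw [(mem_fam.1 hψ).2 i hi, (mem_fam.1 hψ').2 i hi]
  refine (cnt_step O B F (M := Y ^ pot T B O) hrest).trans ?_
  calc (cnt O F : ℝ) * Y ^ pot T B O ≤ Y ^ T.ed (T.mem r) * Y ^ pot T B O :=
        mul_le_mul_of_nonneg_right hcd (by positivity)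
    _ ≤ Y ^ e := by
        rw [← pow_add]
        refine pow_le_pow_right₀ hY ?_
        have h1 := pot_add (B := B) hAO.1 hr subset_union_right
        rw [pot_self hG hS.closedA hS.closedB, ← he] at h1
        omega
    _ ≤ 2 * 4 ^ e * W * Y ^ e := le_mul_of_one_le_left (by positivity) hlow
    _ ≤ W * (5000 * Y ^ 6) ^ e := by
        have h8 : (2 : ℝ) * 4 ^ e ≤ 5000 ^ e := by
          calc (2 : ℝ) * 4 ^ e ≤ 2 ^ e * 4 ^ e :=
                mul_le_mul_of_nonneg_right (le_self_pow₀ one_le_two (by omega)) (by positivity)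
            _ = 8 ^ e := by rw [← mul_pow]; norm_num
            _ ≤ _ := pow_le_pow_left₀ (by norm_num) (by norm_num) e
        calc (2 : ℝ) * 4 ^ e * W * Y ^ e = W * (2 * 4 ^ e * Y ^ e) := by ring
          _ ≤ W * (5000 ^ e * (Y ^ 6) ^ e) := by
              gcongr
              exact le_self_pow₀ hY (by norm_num)
          _ = _ := by rw [mul_pow]

open Classical in
/-- The copies through one seed. -/
theorem seed_bound (hN : Num n q R E Y Lam θ) (hR : Rich q H0) (hG : Good H0 q E Y Lam θ T S)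
    (hS : Step n q T A B) (φ₁ : Fin w ↪ Fin n) {b₀ : Fin w}
    (hbc : b₀ ∉ T.crit → ∀ r ∈ pend T B A, T.xout r ⊆ A → r ∉ T.crit)
    (y : Fin n) {r : Fin w} (hr : r ∈ B \ A) :
    ∃ k, k ≤ rpot T B A ∧ (b₀ ∉ T.crit → k + 1 ≤ rpot T B A) ∧
      (cnt B ((fam S A φ₁).filter fun φ => φ r = y) : ℝ) ≤
        Y ^ T.ed (B \ A) * (12 * (R : ℝ) ^ 3) ^ k * 2 ^ T.ed (B \ A) := by
  have hY := hN.hY
  set F := fam S A φ₁ with hF
  set D := B \ A with hD
  set e := T.ed D with he
  set Z : ℝ := 12 * (R : ℝ) ^ 3 with hZ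
  set Δ : ℕ := 12 * R ^ 3 with hΔdef
  have hΔZ : (Δ : ℝ) = Z := by rw [hΔdef, hZ]; push_cast; ring
  have hΔ1 : 1 ≤ Δ := by
    rw [hΔdef]; have := Nat.one_le_pow 3 R hN.R_pos; omega
  set O := insert r A with hO
  set C := T.cl O with hC
  obtain ⟨hrB, hrA⟩ := mem_sdiff.1 hr
  have hAC : A ⊂ C := ⟨(subset_insert _ _).trans (subset_cl _), fun h =>
    hrA (h (subset_cl _ (mem_insert_self _ _)))⟩
  have hCB : C ⊆ B := cl_min hS.closedB (insert_subset hrB hS.ssub.1)
  refine ⟨rpot T B C, rpot_anti hAC.1, fun hnb => ?_, ?_⟩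
  · -- the closure of the seed holds a lowest block
    have hne : (pend T C A).Nonempty := ⟨T.blk r, mem_filter.2
      ⟨mem_image_of_mem _ (subset_cl _ (mem_insert_self _ _)),
        fun h => hrA (h (Pat.mem_subset_cell _ (Pat.mem_self r)))⟩⟩
    obtain ⟨b, hb, hmin⟩ := exists_min_image (pend T C A) T.rk hne
    have hbB : b ∈ pend T B A := mem_filter.2
      ⟨image_subset_image hCB (mem_filter.1 hb).1, (mem_filter.1 hb).2⟩
    refine rpot_lt hAC.1 hbB (hbc hnb b hbB (bottom hG hS.closedA (closed_cl _) hb hmin)) ?_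
    obtain ⟨hbr, hbC⟩ := roots_spec hG hS.closedA (closed_cl _) hb
    rw [← hbr]
    exact closed_cl _ b (mem_sdiff.1 (hbC (Pat.mem_mem.2 hbr))).1
  set G := F.filter fun φ => φ r = y with hGdef
  have hGconst : ∀ φ ∈ G, ∀ ψ ∈ G, ∀ i ∈ O, φ i = ψ i := fun φ hφ ψ hψ i hi => by
    rcases mem_insert.1 hi with rfl | hi
    · rw [(mem_filter.1 hφ).2, (mem_filter.1 hψ).2]
    · rw [(mem_fam.1 (mem_filter.1 hφ).1).2 i hi, (mem_fam.1 (mem_filter.1 hψ).1).2 i hi]
  have hrest : ∀ φ ∈ G, (cnt B (fam G C φ) : ℝ) ≤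
      Y ^ pot T B C * (Δ : ℝ) ^ rpot T B C * 2 ^ e := by
    intro φ₂ _
    obtain ⟨U, hU, hUall⟩ := exists_local hN.hn hN.hq hN.hq4 hR hN.hnR hG hS (closed_cl O) hAC
      hCB φ₂
    refine explore hG hY hS.closedB hΔ1 (one_le_pow₀ one_le_two) ?_ _ C (fam G C φ₂) le_rfl hAC
      hCB ((filter_subset _ _).trans ((filter_subset _ _).trans (filter_subset _ _)))
      (fun ψ hψ => hUall ψ (mem_fam.2 ⟨(mem_fam.1 (mem_filter.1 (mem_fam.1 hψ).1).1).1,
        (mem_fam.1 hψ).2⟩))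
      fun ψ hψ ψ' hψ' i hi => by rw [(mem_fam.1 hψ).2 i hi, (mem_fam.1 hψ').2 i hi]
    intro O' hc hAO' hO'B φ hφS hφU hdeg _
    -- the roles that are left
    set K := B \ O' with hK
    have hKcard : K.card ≤ 3 * T.ed K := sdiff_card_le hG (fun i hi h0 =>
      no_isolated hN.hn hG hS.closedB hc hS.drop hi h0 hO'B.1 (Or.inl hAO')) hc
        hS.closedB
    set hubs := univ.filter (fun x : Fin n => Δ < (U.filter (x ∈ ·)).card) with hhubs
    have hhc : hubs.card * (Δ + 1) ≤ 2 * U.card := by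
      calc hubs.card * (Δ + 1) ≤ ∑ x ∈ hubs, (U.filter (x ∈ ·)).card := by
            rw [← smul_eq_mul, ← sum_const]
            exact sum_le_sum fun x hx => (mem_filter.1 hx).2
        _ = ∑ ed ∈ U, (hubs.filter (· ∈ ed)).card := by
            simp only [card_filter]; rw [sum_comm]
        _ ≤ ∑ _ed ∈ U, 2 := sum_le_sum fun ed _ => by
            induction ed using Sym2.ind with
            | _ a c =>
              refine (card_le_card (t := {a, c}) fun z hz => ?_).trans card_le_two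
              simpa using (mem_filter.1 hz).2
        _ = 2 * U.card := by rw [sum_const, smul_eq_mul, mul_comm]
    have hsupp : supp (edgesOf T K φ) ⊆ K.image φ ∪ hubs := by
      intro x hx
      obtain ⟨ed, hed, hxe⟩ := mem_supp.1 hx
      obtain ⟨i, hi, j, hj, rfl⟩ := mem_edgesOf.1 hed
      rcases Sym2.mem_iff.1 hxe with rfl | rfl
      · exact mem_union_left _ (mem_image_of_mem _ hi)
      · by_cases hjO : j ∈ O'
        · exact mem_union_right _ (mem_filter.2 ⟨mem_univ _, hdeg i hi j hj hjO⟩)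
        · exact mem_union_left _ (mem_image_of_mem _
            (mem_sdiff.2 ⟨hS.closedB.out_mem (mem_sdiff.1 hi).1 hj, hjO⟩))
    have h1 := rich_supp (by linarith [hN.hn]) hN.hq.le hR (edgesOf_subset hG hφS K) hsupp
    rw [card_edgesOf hG] at h1
    have h2 : (1 : ℝ) / 2 ≤ (n : ℝ) ^ hubs.card * (1 / 2) ^ (2 * T.ed K) := by
      refine h1.trans ?_
      calc (n : ℝ) ^ (K.image φ ∪ hubs).card * q ^ T.ed K
          ≤ (n : ℝ) ^ (K.card + hubs.card) * q ^ T.ed K := by
            refine mul_le_mul_of_nonneg_right (pow_le_pow_right₀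
              (by exact_mod_cast (by linarith [hN.hn] : 1 ≤ n))
              ((card_union_le _ _).trans (Nat.add_le_add_right card_image_le _)))
              (pow_nonneg hN.hq.le _)
        _ = (n : ℝ) ^ hubs.card * (1 / 2) ^ (2 * T.ed K) * wt T n (4 * q) K := by
            rw [wt, pow_mul, mul_pow, pow_add]
            rw [show ((1 : ℝ) / 2) ^ 2 = 1 / 4 by norm_num, div_pow, one_pow]
            field_simp
        _ ≤ _ := mul_le_of_le_one_right (by positivity)
            (hS.drop O' hc hAO' hO'B.1)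
    have h3 := two_pow_le_of_half hN.hnR h2
    have h4 : T.ed K ≤ hubs.card * R := by omega
    have h5 : hubs.card * (12 * R ^ 3) ≤ 4 * (e * R) := by
      rw [← hD, ← he] at hU
      have : hubs.card * (12 * R ^ 3) ≤ hubs.card * (Δ + 1) := by
        gcongr; rw [hΔdef]; omega
      omega
    have h6 : R * K.card ≤ e := by
      have h7 : R * K.card ≤ 3 * (hubs.card * R ^ 2) := by
        calc R * K.card ≤ R * (3 * (hubs.card * R)) :=
              Nat.mul_le_mul_left R (hKcard.trans (Nat.mul_le_mul_left 3 h4))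
          _ = _ := by ring
      refine Nat.le_of_mul_le_mul_left ?_ (show 0 < 4 * R by have := hN.R_pos; omega)
      calc 4 * R * (R * K.card) ≤ 4 * R * (3 * (hubs.card * R ^ 2)) :=
            Nat.mul_le_mul_left _ h7
        _ = hubs.card * (12 * R ^ 3) := by ring
        _ ≤ 4 * (e * R) := h5
        _ = 4 * R * e := by ring
    calc (n : ℝ) ^ K.card ≤ ((2 : ℝ) ^ R) ^ K.card :=
          pow_le_pow_left₀ (by positivity) (by exact_mod_cast hN.hnR) _
      _ ≤ 2 ^ e := by rw [← pow_mul]; exact pow_le_pow_right₀ one_le_two h6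
  refine (cnt_step C B G hrest).trans ?_
  calc (cnt C G : ℝ) * (Y ^ pot T B C * (Δ : ℝ) ^ rpot T B C * 2 ^ e)
      ≤ Y ^ (pot T B O - pot T B C) * (Y ^ pot T B C * (Δ : ℝ) ^ rpot T B C * 2 ^ e) :=
        mul_le_mul_of_nonneg_right (cnt_close hG hY hS.closedB _ O G le_rfl
          (insert_subset hrB hS.ssub.1) ((filter_subset _ _).trans (filter_subset _ _)) hGconst)
          (by positivity)
    _ ≤ _ := by
        rw [← mul_assoc, ← mul_assoc, ← pow_add, Nat.sub_add_cancel (pot_anti (subset_cl O)),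
          hΔZ]
        refine mul_le_mul_of_nonneg_right (mul_le_mul_of_nonneg_right (pow_le_pow_right₀ hY ?_)
          (by positivity)) (by positivity)
        rw [he, ← pot_self hG hS.closedA hS.closedB]
        exact pot_anti (subset_insert _ _)

open Classical in
/-- One block of the chain. -/
theorem block_bound (hN : Num n q R E Y Lam θ) (hR : Rich q H0)
    (hG : Good H0 q E Y Lam θ T S) (hS : Step n q T A B) (φ₁ : Fin w ↪ Fin n) :
    (cnt B (fam S A φ₁) : ℝ) ≤ wt T n q (B \ A) * (5000 * Y ^ 6) ^ T.ed (B \ A) := by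
  by_cases hm0 : rpot T B A = 0
  · exact crit_block hN hG hS hm0 φ₁
  have hpend := pend_nonempty hG hS
  set D := B \ A with hD
  set e := T.ed D with he
  set W := wt T n q D with hW
  set Z : ℝ := 12 * (R : ℝ) ^ 3 with hZ
  set F := fam S A φ₁ with hF
  have hW0 : 0 < W := wt_pos (by linarith [hN.hn]) hN.hq D
  have he1 : 1 ≤ e := one_le_ed hS
  have hsmall : D.card ≤ 3 * e := hS.small
  have hY := hN.hY
  have hZ1 := hN.one_le_Z
  have hlow : 1 ≤ 2 * 4 ^ e * W := one_le_wt hS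
  -- a chosen lowest block, critical if possible
  obtain ⟨b₀, hb₀, hbx, hbc⟩ : ∃ b₀ ∈ pend T B A, T.xout b₀ ⊆ A ∧ (b₀ ∉ T.crit →
      ∀ r ∈ pend T B A, T.xout r ⊆ A → r ∉ T.crit) := by
    by_cases h : ∃ r ∈ pend T B A, T.xout r ⊆ A ∧ r ∈ T.crit
    · obtain ⟨r, hr, hrx, hrc⟩ := h
      exact ⟨r, hr, hrx, fun hh => absurd hrc hh⟩
    · obtain ⟨r, hr, hmin⟩ := exists_min_image (pend T B A) T.rk hpend
      exact ⟨r, hr, bottom hG hS.closedA hS.closedB hr hmin,
        fun _ r hr hrx hrc => h ⟨r, hr, hrx, hrc⟩⟩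
  obtain ⟨Zs, hZs, hhit⟩ := exists_seeds hN.hn hN.hq hR hN.hnR hG hS φ₁
  -- all seeds
  obtain ⟨k, hk1, hk2, hall⟩ : ∃ k, k ≤ rpot T B A ∧ (b₀ ∉ T.crit → k + 1 ≤ rpot T B A) ∧
      (cnt B F : ℝ) ≤ (Zs.card : ℝ) * (Y ^ e * Z ^ k * 2 ^ e) := by
    refine ⟨if b₀ ∈ T.crit then rpot T B A else rpot T B A - 1, by split_ifs <;> omega,
      fun h => by rw [if_neg h]; omega, ?_⟩
    set k := (if b₀ ∈ T.crit then rpot T B A else rpot T B A - 1)
    set g : (Fin w ↪ Fin n) → Fin n × Fin w := fun φ =>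
      if h : ∃ z ∈ Zs, z.2 ∈ D ∧ φ z.2 = z.1 then h.choose else (φ b₀, b₀)
    have hg : ∀ φ ∈ F, g φ ∈ Zs ∧ (g φ).2 ∈ D ∧ φ (g φ).2 = (g φ).1 := fun φ hφ => by
      have h := hhit φ hφ
      simp only [g, hD] at h ⊢
      rw [dif_pos h]
      exact h.choose_spec
    refine (cnt_split g B F (M := Y ^ e * Z ^ k * 2 ^ e) fun φ hφ => ?_).trans ?_
    · obtain ⟨-, h2, h3⟩ := hg φ hφ
      obtain ⟨k', hk', hk'', hb⟩ := seed_bound hN hR hG hS φ₁ hbc (g φ).1 h2
      refine le_trans (Nat.cast_le.2 (cnt_mono B fun ψ hψ => ?_)) (hb.trans ?_)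
      · obtain ⟨hψF, hψg⟩ := mem_filter.1 hψ
        refine mem_filter.2 ⟨hψF, ?_⟩
        rw [← hψg]; exact (hg ψ hψF).2.2
      · refine mul_le_mul_of_nonneg_right (mul_le_mul_of_nonneg_left
          (pow_le_pow_right₀ hZ1 ?_) (by positivity)) (by positivity)
        simp only [k]
        split_ifs with h
        · exact hk'
        · have := hk'' h; omega
    · refine mul_le_mul_of_nonneg_right (Nat.cast_le.2 (card_le_card fun z hz => ?_))
        (by positivity)
      obtain ⟨φ, hφ, rfl⟩ := mem_image.1 hz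
      exact (hg φ hφ).1
  -- the numbers
  have hmarks := marks_pow hN hG hS.closedA hS.closedB
  have hlights := light_pow hN hG hS hb₀ hbx
  set L' := (((pend T B A).erase b₀).filter fun r => r ∉ T.crit ∧ T.ed (T.mem r) < E).card
  set Mk := marks T E B A
  set L := lights T E B A with hL
  have hmk : rpot T B A = L + Mk := rpot_eq B A
  have hL' : L ≤ L' + 1 ∧ (b₀ ∈ T.crit → L = L') := by
    simp only [hL, lights, L']
    rw [filter_erase]
    refine ⟨?_, fun hc => ?_⟩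
    · have := pred_card_le_card_erase (a := b₀)
        (s := (pend T B A).filter fun r => r ∉ T.crit ∧ T.ed (T.mem r) < E)
      omega
    · rw [erase_eq_of_notMem fun h => (mem_filter.1 h).2.1 hc]
  have hsum : (Zs.card : ℝ) ≤ W * 8 ^ e * 9 * 4 ^ e * (Z * 8 ^ e) := by
    refine hZs.trans ?_
    have hd2 : (D.card : ℝ) ^ 2 ≤ 9 * 4 ^ e := by
      have h1 : (D.card : ℝ) ≤ 3 * 2 ^ e := by
        have : D.card ≤ 3 * 2 ^ e := hsmall.trans (Nat.mul_le_mul_left 3 Nat.lt_two_pow_self.le)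
        exact_mod_cast this
      calc (D.card : ℝ) ^ 2 ≤ (3 * 2 ^ e) ^ 2 := pow_le_pow_left₀ (Nat.cast_nonneg _) h1 2
        _ = _ := by rw [mul_pow, ← pow_mul, mul_comm e 2, pow_mul]; norm_num
    have hRZ : (R : ℝ) ≤ Z := by
      have h1 : (1 : ℝ) ≤ R := by exact_mod_cast hN.R_pos
      rw [hZ]
      nlinarith [le_self_pow₀ h1 (show (3 : ℕ) ≠ 0 by norm_num)]
    have heR : ((e * R + 1 : ℕ) : ℝ) ≤ W * 8 ^ e * (Z * 4 ^ e) := by
      have h1 : ((e * R + 1 : ℕ) : ℝ) ≤ 4 ^ e * Z := by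
        have h2 : e + 1 ≤ 2 ^ e := Nat.lt_two_pow_self
        have h3 : ((e : ℝ) + 1) ≤ 4 ^ e := by
          calc ((e : ℝ) + 1) ≤ 2 ^ e := by exact_mod_cast h2
            _ ≤ _ := pow_le_pow_left₀ (by norm_num) (by norm_num) e
        push_cast
        nlinarith [mul_le_mul h3 hRZ (Nat.cast_nonneg R) (by positivity)]
      have h8 : (2 : ℝ) * 4 ^ e ≤ 8 ^ e := by
        rw [show (8 : ℝ) = 2 * 4 by norm_num, mul_pow]
        exact mul_le_mul_of_nonneg_right (le_self_pow₀ one_le_two (by omega)) (by positivity)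
      refine h1.trans ?_
      calc (4 : ℝ) ^ e * Z ≤ 2 * 4 ^ e * W * (4 ^ e * Z) :=
            le_mul_of_one_le_left (by positivity) hlow
        _ ≤ 8 ^ e * W * (4 ^ e * Z) := by gcongr
        _ = _ := by ring
    have h6 : 6 * W ≤ W * 8 ^ e * (Z * 4 ^ e) := by
      have h : (6 : ℝ) ≤ 8 ^ e * (Z * 4 ^ e) := by
        nlinarith [le_self_pow₀ (show (1 : ℝ) ≤ 8 by norm_num) (show e ≠ 0 by omega),
          one_le_mul_of_one_le_of_one_le hZ1 (one_le_pow₀ (n := e) (show (1 : ℝ) ≤ 4 by norm_num))]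
      nlinarith [mul_le_mul_of_nonneg_left h hW0.le]
    calc (6 * W + ((e * R + 1 : ℕ) : ℝ)) * (D.card : ℝ) ^ 2
        ≤ (2 * (W * 8 ^ e * (Z * 4 ^ e))) * (9 * 4 ^ e) :=
          mul_le_mul (by linarith) hd2 (by positivity) (by positivity)
      _ ≤ _ := by
          have h2 : (2 : ℝ) * 4 ^ e ≤ 8 ^ e := by
            rw [show (8 : ℝ) = 2 * 4 by norm_num, mul_pow]
            exact mul_le_mul_of_nonneg_right (le_self_pow₀ one_le_two (by omega)) (by positivity)
          have h0 : 0 ≤ W * 8 ^ e * 9 * 4 ^ e * Z := by positivity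
          nlinarith [mul_le_mul_of_nonneg_left h2 h0]
  have hfin : ∀ {V : ℝ}, 0 ≤ V → V * Z ^ k ≤ (Y ^ 5) ^ e → (Zs.card : ℝ) ≤ W * 8 ^ e * 9 * 4 ^ e * (V * 8 ^ e) →
      (cnt B F : ℝ) ≤ W * (5000 * Y ^ 6) ^ e := by
    intro V hV0 hV hcard
    refine hall.trans ((mul_le_mul_of_nonneg_right hcard (by positivity)).trans ?_)
    calc W * 8 ^ e * 9 * 4 ^ e * (V * 8 ^ e) * (Y ^ e * Z ^ k * 2 ^ e)
        = W * (9 * ((8 : ℝ) ^ e * 4 ^ e * 8 ^ e * 2 ^ e)) * Y ^ e * (V * Z ^ k) := by ring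
      _ ≤ W * 5000 ^ e * Y ^ e * (Y ^ 5) ^ e := by
          refine mul_le_mul (mul_le_mul_of_nonneg_right (mul_le_mul_of_nonneg_left ?_ hW0.le)
            (by positivity)) hV ?_ (by positivity)
          · rw [← mul_pow, ← mul_pow, ← mul_pow]
            calc (9 : ℝ) * (8 * 4 * 8 * 2) ^ e ≤ 9 ^ e * (8 * 4 * 8 * 2) ^ e :=
                  mul_le_mul_of_nonneg_right (le_self_pow₀ (by norm_num) (by omega)) (by positivity)
              _ ≤ _ := by
                  rw [← mul_pow]; exact pow_le_pow_left₀ (by norm_num) (by norm_num) e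
          · positivity
      _ = _ := by
          rw [mul_pow, mul_assoc, mul_assoc, ← mul_pow, ← pow_succ' Y 5]
  by_cases hgen : Mk ≠ 0 ∨ 2 ≤ L ∨ b₀ ∈ T.crit
  · refine hfin (V := Z) (by linarith) ?_ hsum
    rw [← pow_succ']
    calc Z ^ (k + 1) ≤ Z ^ (2 * L' + 3 * Mk) := by
          refine pow_le_pow_right₀ hZ1 ?_
          by_cases hc : b₀ ∈ T.crit
          · have := hL'.2 hc; omega
          · have := hk2 hc
            rcases hgen with h | h | h
            · omega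
            · omega
            · exact absurd h hc
      _ = (Z ^ L') ^ 2 * (Z ^ Mk) ^ 3 := by rw [pow_add, ← pow_mul, ← pow_mul]; ring
      _ ≤ (Y ^ e) ^ 2 * (Y ^ e) ^ 3 :=
          mul_le_mul (pow_le_pow_left₀ (by positivity) hlights 2)
            (pow_le_pow_left₀ (by positivity) hmarks 3) (by positivity) (by positivity)
      _ = _ := by rw [← pow_add, ← pow_mul, ← pow_mul, mul_comm]
  -- one block with few edges and critical blocks
  push Not at hgen
  obtain ⟨hMk, hL2, hbcr⟩ := hgen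
  have hk0 : k = 0 := by have := hk2 hbcr; omega
  have hLam0 : 0 < Lam := lt_of_lt_of_le (by positivity) hN.hLam
  have hWlow : Lam * θ ^ e ≤ W := by
    have hb₀r := roots_spec hG hS.closedA hS.closedB hb₀
    have hlt : T.ed (T.mem b₀) < E := by
      by_contra h
      have : b₀ ∈ (pend T B A).filter fun r => r ∉ T.crit ∧ E ≤ T.ed (T.mem r) :=
        mem_filter.2 ⟨hb₀, hbcr, by omega⟩
      exact notMem_empty _ (card_eq_zero.1 hMk ▸ this)
    rw [he, hW, hD, ← biUnion_pend hG hS.closedA hS.closedB, ed_biUnion_mem, wt_biUnion_mem,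
      ← prod_pow_eq_pow_sum, ← mul_prod_erase _ _ hb₀, ← mul_prod_erase _ _ hb₀, ← mul_assoc]
    refine mul_le_mul (((hG.weight b₀ hb₀r.1).2 hbcr).resolve_right (by omega))
      (prod_le_prod (fun r _ => pow_nonneg hN.hθ.le _) fun r hr =>
        (hG.weight r (roots_spec hG hS.closedA hS.closedB (mem_erase.1 hr).2).1).1)
      (prod_nonneg fun r _ => pow_nonneg hN.hθ.le _) (wt_pos (by linarith [hN.hn]) hN.hq _).le
  by_cases hbig : Z ≤ Lam * θ ^ e
  · refine hfin (V := 1) zero_le_one ?_ ?_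
    · rw [hk0]; simpa using one_le_pow₀ (one_le_pow₀ hY)
    refine hZs.trans ?_
    have hd2 : (D.card : ℝ) ^ 2 ≤ 9 * 4 ^ e := by
      have h1 : (D.card : ℝ) ≤ 3 * 2 ^ e := by
        have : D.card ≤ 3 * 2 ^ e := hsmall.trans (Nat.mul_le_mul_left 3 Nat.lt_two_pow_self.le)
        exact_mod_cast this
      calc (D.card : ℝ) ^ 2 ≤ (3 * 2 ^ e) ^ 2 := pow_le_pow_left₀ (Nat.cast_nonneg _) h1 2
        _ = _ := by rw [mul_pow, ← pow_mul, mul_comm e 2, pow_mul]; norm_num
    have hRW : (R : ℝ) ≤ W := by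
      have h1 : (1 : ℝ) ≤ R := by exact_mod_cast hN.R_pos
      rw [hZ] at hbig
      nlinarith [le_self_pow₀ h1 (show (3 : ℕ) ≠ 0 by norm_num)]
    have hW1 : 1 ≤ W := le_trans hZ1 (hbig.trans hWlow)
    have h3 : ((e : ℝ) + 1) ≤ 2 ^ e := by exact_mod_cast Nat.lt_two_pow_self (n := e)
    have h4 : (6 : ℝ) + 2 ^ e ≤ 8 ^ e * 8 ^ e := by
      have h5 : (2 : ℝ) ^ e * 4 ^ e = 8 ^ e := by rw [← mul_pow]; norm_num
      have h6 := le_self_pow₀ (show (1 : ℝ) ≤ 8 by norm_num) (show e ≠ 0 by omega)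
      have h7 : (1 : ℝ) ≤ 4 ^ e := one_le_pow₀ (by norm_num)
      nlinarith [pow_pos (show (0 : ℝ) < 2 by norm_num) e]
    calc (6 * W + ((e * R + 1 : ℕ) : ℝ)) * (D.card : ℝ) ^ 2
        ≤ (W * (8 ^ e * 8 ^ e)) * (9 * 4 ^ e) := by
          refine mul_le_mul ?_ hd2 (by positivity) (by positivity)
          push_cast
          nlinarith [mul_le_mul_of_nonneg_left hRW (Nat.cast_nonneg (α := ℝ) e),
            mul_le_mul_of_nonneg_left h4 hW0.le, mul_le_mul_of_nonneg_left h3 hW0.le]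
      _ = _ := by ring
  · refine hfin (V := Z) (by linarith) ?_ hsum
    rw [hk0, pow_zero, mul_one]
    rw [not_le] at hbig
    have h2 : Lam ^ 1 * θ ^ (2 * e) ≤ 1 := by
      have h3 : (Lam * θ ^ e) ^ 2 ≤ Lam :=
        (pow_le_pow_left₀ (mul_nonneg hLam0.le (pow_nonneg hN.hθ.le _)) hbig.le 2).trans hN.hLam
      rw [pow_one, mul_comm 2 e, pow_mul]
      refine le_of_mul_le_mul_left ?_ hLam0
      calc Lam * (Lam * (θ ^ e) ^ 2) = (Lam * θ ^ e) ^ 2 := by ring
        _ ≤ Lam := h3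
        _ = Lam * 1 := (mul_one Lam).symm
    calc Z = Z ^ 1 := (pow_one Z).symm
      _ ≤ Y ^ (2 * e) := hN.hlight 1 _ h2
      _ ≤ _ := by rw [← pow_mul]; exact pow_le_pow_right₀ hY (by omega)

/-- A family of copies of one shape obeys the bound of its weight. -/
theorem chain_bound (hN : Num n q R E Y Lam θ) (hR : Rich q H0) (hG : Good H0 q E Y Lam θ T S) :
    (S.card : ℝ) ≤ (n : ℝ) ^ w * ((5000 * Y ^ 6) * q) ^ T.ed univ := by
  classical
  have hn0 : 0 < n := by linarith [hN.hn]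
  have hq4 : (0 : ℝ) < 4 * q := by linarith [hN.hq]
  rcases S.eq_empty_or_nonempty with hS | ⟨φ₀, hφ₀⟩
  · rw [hS, card_empty, Nat.cast_zero]
    have := hN.hq; have := hN.hY
    positivity
  have key : ∀ (k : ℕ) (A : Finset (Fin w)), (univ \ A).card ≤ k → T.Closed A →
      (∀ D, T.Closed D → A ⊂ D → 1 / 2 ≤ wt T n (4 * q) (D \ A)) →
      ∀ φ₁, (cnt univ (fam S A φ₁) : ℝ) ≤
        wt T n q (univ \ A) * (5000 * Y ^ 6) ^ T.ed (univ \ A) := by
    intro k
    induction k using Nat.strong_induction_on with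
    | _ k ih =>
      intro A hk hA hlow φ₁
      by_cases hAu : A = univ
      · subst hAu
        refine le_trans (Nat.cast_le.2 (cnt_le_one fun φ hφ ψ hψ i hi => ?_)) ?_
        · rw [(mem_fam.1 hφ).2 i hi, (mem_fam.1 hψ).2 i hi]
        · simp [wt, Pat.ed]
      have hcl : (univ.powerset.filter fun D => T.Closed D ∧ A ⊂ D).Nonempty :=
        ⟨univ, mem_filter.2 ⟨mem_powerset.2 subset_rfl, closed_univ,
          ssubset_univ_iff.2 hAu⟩⟩
      set cand := univ.powerset.filter fun D => T.Closed D ∧ A ⊂ D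
      obtain ⟨B₁, hB₁, hmin₁⟩ := exists_min_image cand (fun D => wt T n (4 * q) (D \ A)) hcl
      obtain ⟨B, hB, hmax⟩ := exists_max_image
        (cand.filter fun D => wt T n (4 * q) (D \ A) ≤ wt T n (4 * q) (B₁ \ A)) Finset.card
        ⟨B₁, mem_filter.2 ⟨hB₁, le_rfl⟩⟩
      obtain ⟨hBc, hBm⟩ := mem_filter.1 hB
      obtain ⟨hBcl, hAB⟩ := (mem_filter.1 hBc).2
      have hBmin : ∀ D, T.Closed D → A ⊂ D → wt T n (4 * q) (B \ A) ≤ wt T n (4 * q) (D \ A) :=
        fun D hD hAD => hBm.trans (hmin₁ D (mem_filter.2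
          ⟨mem_powerset.2 (subset_univ _), hD, hAD⟩))
      have hdrop : ∀ C, T.Closed C → A ⊂ C → C ⊆ B → wt T n (4 * q) (B \ C) ≤ 1 := by
        intro C hC hAC hCB
        have h1 := hBmin C hC hAC
        rw [wt_chain (4 * q) hAC.1 hCB] at h1
        exact le_of_mul_le_mul_left (by rwa [mul_one]) (wt_pos hn0 hq4 _)
      have hnext : ∀ D, T.Closed D → B ⊂ D → 1 / 2 ≤ wt T n (4 * q) (D \ B) := by
        intro D hD hBD
        by_contra hlt
        rw [not_le] at hlt
        have h1 : wt T n (4 * q) (D \ A) ≤ wt T n (4 * q) (B \ A) := by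
          rw [wt_chain (4 * q) hAB.1 hBD.1]
          exact mul_le_of_le_one_right (wt_pos hn0 hq4 _).le (by linarith)
        have h2 := hmax D (mem_filter.2 ⟨mem_filter.2 ⟨mem_powerset.2 (subset_univ _), hD,
          hAB.trans_subset hBD.1⟩, h1.trans hBm⟩)
        exact absurd h2 (not_le.2 (card_lt_card hBD))
      have hblock : ∀ ψ, (cnt B (fam S A ψ) : ℝ) ≤
          wt T n q (B \ A) * (5000 * Y ^ 6) ^ T.ed (B \ A) := by
        intro ψ
        by_cases hone : ∃ i ∈ B \ A, A = B.erase i ∧ T.ed (T.mem (T.blk i)) = 0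
        · obtain ⟨i, hi, hAi, h0⟩ := hone
          have hBA : B \ A = {i} := by
            rw [hAi, sdiff_erase (mem_sdiff.1 hi).1]; simp
          have he : T.ed (B \ A) = 0 := by
            rw [hBA]
            refine Nat.le_zero.1 (le_trans (ed_mono ?_) (le_of_eq h0))
            simpa using Pat.mem_self i
          rw [wt, he, pow_zero, pow_zero, mul_one, mul_one]
          exact_mod_cast cnt_le_pow fun φ hφ φ' hφ' j hj => by
            rw [(mem_fam.1 hφ).2 j hj, (mem_fam.1 hφ').2 j hj]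
        push Not at hone
        refine block_bound hN hR hG ⟨hA, hBcl, hAB, hlow B hBcl hAB, hdrop, ?_⟩ ψ
        refine sdiff_card_le hG (fun i hi h0 => no_isolated hN.hn hG hBcl hA hdrop hi h0
          hAB.1 (Or.inr ⟨fun x hx => mem_erase.2 ⟨fun e => (mem_sdiff.1 hi).2 (e ▸ hx), hAB.1 hx⟩,
            fun h => hone i hi (Subset.antisymm (fun x hx => mem_erase.2
              ⟨fun e => (mem_sdiff.1 hi).2 (e ▸ hx), hAB.1 hx⟩) h) h0⟩)) hA hBcl
      refine (cnt_step B univ (fam S A φ₁)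
        (M := wt T n q (univ \ B) * (5000 * Y ^ 6) ^ T.ed (univ \ B)) fun φ _ => ?_).trans ?_
      · refine le_trans (Nat.cast_le.2 (cnt_mono _ fun ψ hψ => ?_))
          (ih _ (lt_of_lt_of_le ?_ hk) B le_rfl hBcl hnext φ)
        · exact mem_fam.2 ⟨(mem_fam.1 (mem_fam.1 hψ).1).1, (mem_fam.1 hψ).2⟩
        · obtain ⟨x, hx, hxA⟩ := exists_of_ssubset hAB
          exact card_lt_card ((ssubset_iff_of_subset (sdiff_subset_sdiff subset_rfl hAB.1)).2
            ⟨x, mem_sdiff.2 ⟨mem_univ x, hxA⟩, fun h => (mem_sdiff.1 h).2 hx⟩)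
      · refine (mul_le_mul_of_nonneg_right (hblock φ₁) ?_).trans (le_of_eq ?_)
        · have := wt_pos (T := T) hn0 hN.hq (univ \ B)
          have := hN.hY
          positivity
        · rw [wt_chain q hAB.1 (subset_univ B), ed_chain hAB.1 (subset_univ B), pow_add]
          ring
  have h := key _ ∅ le_rfl closed_empty (fun D hD _ => ?_) φ₀
  · rw [sdiff_empty, cnt_univ] at h
    have hfam : fam S ∅ φ₀ = S := filter_true_of_mem fun φ _ i hi => absurd hi (notMem_empty i)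
    rw [hfam, wt, card_univ, Fintype.card_fin, mul_assoc, ← mul_pow, mul_comm q] at h
    exact h
  · rw [sdiff_empty]
    have hsupp : supp (edgesOf T D φ₀) ⊆ D.image φ₀ := by
      intro x hx
      obtain ⟨ed, hed, hxe⟩ := mem_supp.1 hx
      obtain ⟨i, hi, j, hj, rfl⟩ := mem_edgesOf.1 hed
      rcases Sym2.mem_iff.1 hxe with rfl | rfl
      · exact mem_image_of_mem _ hi
      · exact mem_image_of_mem _ (hD.out_mem hi hj)
    have h := rich_supp hn0 hN.hq.le hR (edgesOf_subset hG hφ₀ D) hsupp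
    rw [card_edgesOf hG, card_image_of_injective _ φ₀.injective] at h
    refine h.trans ?_
    have := hN.hq
    rw [wt]
    gcongr
    linarith

end Vale.Agent.P064.Chain
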